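import Mathlib
import Vale.Agent.Lib.Helper2.Cube

/-! The bias polynomial `p(s) = ∑_S fhat(S) s^|S|` of a Boolean function on the cube, and a
differential inequality for it obtained from restrictions. -/

namespace Vale.Agent.Lib.Helper4.BiasPoly

open Finset Vale.Agent.Lib.Helper2.Cube

variable {n : ℕ}

theorem parseval (f : (Fin n → ℤˣ) → ℝ) (hf : ∀ x, f x = 1 ∨ f x = -1) :
    ∑ S, fhat f S * fhat f S = 1 := by
  rw [← plancherel]
  have : ∀ x, f x * f x = 1 := by
    intro x; rcases hf x with h | h <;> rw [h] <;> norm_num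
  simp_rw [this]
  rw [Finset.sum_const, Finset.card_univ, nsmul_eq_mul, mul_one, card_cube]
  exact div_self (by positivity)

theorem influence (f : (Fin n → ℤˣ) → ℝ) (hf : ∀ x, f x = 1 ∨ f x = -1) (i : Fin n) :
    |fhat f {i}| ≤ ∑ S, (if i ∈ S then fhat f S * fhat f S else 0) := by
  have h2 : fhat (fun x => f x - f (flip i x)) {i} = 2 * fhat f {i} := by
    rw [fhat_sub, fhat_flip]
    simp
    ring
  have habs : ∀ x, |f x - f (flip i x)| = 1 - f x * f (flip i x) := by
    intro x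
    rcases hf x with h | h <;> rcases hf (flip i x) with h' | h' <;> rw [h, h'] <;> norm_num
  have hpos : (0 : ℝ) < 2 ^ n := by positivity
  have h3 : |fhat (fun x => f x - f (flip i x)) {i}|
      ≤ (∑ x, (1 - f x * f (flip i x))) / 2 ^ n := by
    simp only [fhat_eq]
    rw [abs_div, abs_of_pos hpos]
    apply div_le_div_of_nonneg_right _ hpos.le
    calc |∑ x, (f x - f (flip i x)) * chi {i} x|
        ≤ ∑ x, |(f x - f (flip i x)) * chi {i} x| := Finset.abs_sum_le_sum_abs _ _
      _ = ∑ x, (1 - f x * f (flip i x)) := by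
          apply Finset.sum_congr rfl
          intro x _
          rw [abs_mul, chi_abs, mul_one, habs]
  have h4 : (∑ x, (1 - f x * f (flip i x))) / 2 ^ n
      = 1 - ∑ S, fhat f S * ((if i ∈ S then -1 else 1) * fhat f S) := by
    rw [Finset.sum_sub_distrib, sub_div, plancherel]
    congr 1
    · rw [Finset.sum_const, Finset.card_univ, nsmul_eq_mul, mul_one, card_cube]
      exact div_self hpos.ne'
    · apply Finset.sum_congr rfl
      intro S _
      rw [fhat_flip]
  rw [h2, h4] at h3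
  rw [abs_mul, abs_of_pos (by norm_num : (0 : ℝ) < 2)] at h3
  have h5 : ∀ S : Finset (Fin n),
      2 * (if i ∈ S then fhat f S * fhat f S else 0)
      = fhat f S * fhat f S - fhat f S * ((if i ∈ S then -1 else 1) * fhat f S) := by
    intro S
    split_ifs <;> ring
  have h6 : 2 * ∑ S, (if i ∈ S then fhat f S * fhat f S else 0)
      = 1 - ∑ S, fhat f S * ((if i ∈ S then -1 else 1) * fhat f S) := by
    rw [Finset.mul_sum, Finset.sum_congr rfl (fun S _ => h5 S), Finset.sum_sub_distrib,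
      parseval f hf]
  linarith

/-- For a Boolean function of degree at most `d`, the level-one sum is at most
`d (1 - fhat(∅)^2)`. -/
theorem level_one_le (d : ℕ) (f : (Fin n → ℤˣ) → ℝ) (hf : ∀ x, f x = 1 ∨ f x = -1)
    (hdeg : ∀ S : Finset (Fin n), d < S.card → fhat f S = 0) :
    ∑ i, fhat f {i} ≤ d * (1 - fhat f ∅ ^ 2) := by
  have h1 : ∑ i, fhat f {i} ≤ ∑ i, ∑ S, (if i ∈ S then fhat f S * fhat f S else 0) :=
    Finset.sum_le_sum (fun i _ => (le_abs_self _).trans (influence f hf i))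
  have h2 : ∑ i : Fin n, ∑ S : Finset (Fin n), (if i ∈ S then fhat f S * fhat f S else 0)
      = ∑ S : Finset (Fin n), (S.card : ℝ) * (fhat f S * fhat f S) := by
    rw [Finset.sum_comm]
    apply Finset.sum_congr rfl
    intro S _
    rw [Finset.sum_ite_mem, Finset.univ_inter, Finset.sum_const, nsmul_eq_mul]
  have h3 : ∑ S : Finset (Fin n), (S.card : ℝ) * (fhat f S * fhat f S)
      ≤ ∑ S : Finset (Fin n), (d : ℝ) * (if S = ∅ then 0 else fhat f S * fhat f S) := by
    apply Finset.sum_le_sum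
    intro S _
    by_cases hS : S = ∅
    · subst hS
      simp
    · rw [if_neg hS]
      by_cases hc : d < S.card
      · rw [hdeg S hc]
        simp
      · have hc' : (S.card : ℝ) ≤ d := by exact_mod_cast Nat.le_of_not_lt hc
        exact mul_le_mul_of_nonneg_right hc' (mul_self_nonneg _)
  have h4 : ∑ S : Finset (Fin n), (if S = ∅ then 0 else fhat f S * fhat f S)
      = 1 - fhat f ∅ ^ 2 := by
    have hp := parseval f hf
    rw [← Finset.add_sum_erase _ _ (Finset.mem_univ (∅ : Finset (Fin n)))] at hp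
    rw [← Finset.add_sum_erase _ _ (Finset.mem_univ (∅ : Finset (Fin n)))]
    have : ∑ S ∈ Finset.univ.erase (∅ : Finset (Fin n)),
        (if S = ∅ then 0 else fhat f S * fhat f S)
        = ∑ S ∈ Finset.univ.erase (∅ : Finset (Fin n)), fhat f S * fhat f S := by
      apply Finset.sum_congr rfl
      intro S hS
      rw [if_neg (Finset.ne_of_mem_erase hS)]
    rw [this]
    simp only [if_true]
    linarith [sq (fhat f ∅)]
  rw [← Finset.mul_sum, h4] at h3
  linarith

/-- Fix the coordinates in `J` to `1`. -/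
def rho (J : Finset (Fin n)) (x : Fin n → ℤˣ) : Fin n → ℤˣ := fun i => if i ∈ J then 1 else x i

theorem chi_rho (J S : Finset (Fin n)) (x : Fin n → ℤˣ) :
    chi S (rho J x) = chi (S \ J) x := by
  unfold chi rho
  rw [← Finset.filter_notMem_eq_sdiff, Finset.prod_filter]
  apply Finset.prod_congr rfl
  intro i _
  by_cases h : i ∈ J <;> simp [h]

theorem fhat_chi (U T : Finset (Fin n)) : fhat (chi U) T = if U = T then 1 else 0 := by
  rw [fhat_eq]
  simp_rw [chi_mul]
  rw [sum_chi]
  have hpos : (0 : ℝ) < 2 ^ n := by positivity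
  by_cases h : U = T
  · subst h
    simp [hpos.ne']
  · have : symmDiff U T ≠ ∅ := by
      intro h'
      exact h (symmDiff_eq_bot.mp h')
    simp [h, this]

theorem fhat_sum_chi (c : Finset (Fin n) → ℝ) (U : Finset (Fin n) → Finset (Fin n))
    (T : Finset (Fin n)) :
    fhat (fun x => ∑ S, c S * chi (U S) x) T = ∑ S, c S * (if U S = T then 1 else 0) := by
  have h : ∀ S, c S * (if U S = T then (1 : ℝ) else 0) = c S * fhat (chi (U S)) T := by
    intro S
    rw [fhat_chi]
  simp_rw [h, fhat_eq]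
  have h2 : ∀ S, c S * ((∑ x, chi (U S) x * chi T x) / 2 ^ n)
      = (∑ x, c S * chi (U S) x * chi T x) / 2 ^ n := by
    intro S
    rw [← mul_div_assoc, Finset.mul_sum]
    congr 1
    apply Finset.sum_congr rfl
    intro x _
    ring
  simp_rw [h2]
  rw [← Finset.sum_div]
  congr 1
  rw [Finset.sum_comm]
  apply Finset.sum_congr rfl
  intro x _
  rw [Finset.sum_mul]

/-- Fourier coefficients of a restriction. -/
theorem fhat_rho (f : (Fin n → ℤˣ) → ℝ) (J T : Finset (Fin n)) :
    fhat (fun x => f (rho J x)) T = ∑ S, fhat f S * (if S \ J = T then 1 else 0) := by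
  rw [← fhat_sum_chi (fun S => fhat f S) (fun S => S \ J) T]
  congr 1
  funext x
  rw [inversion f (rho J x)]
  simp_rw [chi_rho]

/-- The bias polynomial `p(s) = ∑_S fhat(S) s^|S|`, the mean of `f` under the product measure
in which every coordinate has mean `s`. -/
noncomputable def pf (f : (Fin n → ℤˣ) → ℝ) (s : ℝ) : ℝ := ∑ S, fhat f S * s ^ S.card

/-- The derivative of the bias polynomial. -/
noncomputable def dpf (f : (Fin n → ℤˣ) → ℝ) (s : ℝ) : ℝ :=
  ∑ S, fhat f S * ((S.card : ℝ) * s ^ (S.card - 1))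

theorem hasDerivAt_pf (f : (Fin n → ℤˣ) → ℝ) (s : ℝ) : HasDerivAt (pf f) (dpf f s) s := by
  unfold pf dpf
  apply HasDerivAt.fun_sum
  intro S _
  exact (hasDerivAt_pow _ s).const_mul _

theorem wsum (s t : ℝ) (S : Finset (Fin n)) :
    ∑ J : Finset (Fin n), s ^ J.card * (1 - s) ^ (n - J.card) * t ^ (S \ J).card
      = (s + (1 - s) * t) ^ S.card := by
  have h := Finset.prod_add (fun _ : Fin n => s)
    (fun i : Fin n => (1 - s) * (if i ∈ S then t else 1)) Finset.univ
  rw [Finset.powerset_univ] at h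
  have hL : ∏ i : Fin n, (s + (1 - s) * (if i ∈ S then t else 1))
      = (s + (1 - s) * t) ^ S.card := by
    have : ∀ i : Fin n, s + (1 - s) * (if i ∈ S then t else 1)
        = if i ∈ S then s + (1 - s) * t else 1 := by
      intro i
      split_ifs <;> ring
    simp_rw [this]
    rw [Finset.prod_ite_mem, Finset.univ_inter, Finset.prod_const]
  rw [← hL, h]
  apply Finset.sum_congr rfl
  intro J _
  rw [Finset.prod_const, Finset.prod_mul_distrib, Finset.prod_const, Finset.prod_ite_mem,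
    Finset.prod_const]
  have h1 : (Finset.univ \ J).card = n - J.card := by
    rw [Finset.card_univ_sdiff, Fintype.card_fin]
  have h2 : (Finset.univ \ J) ∩ S = S \ J := by
    ext i
    simp [Finset.mem_sdiff, and_comm]
  rw [h1, h2]
  ring

theorem pf_rho (f : (Fin n → ℤˣ) → ℝ) (J : Finset (Fin n)) (t : ℝ) :
    pf (fun x => f (rho J x)) t = ∑ S, fhat f S * t ^ (S \ J).card := by
  unfold pf
  simp_rw [fhat_rho, Finset.sum_mul]
  rw [Finset.sum_comm]
  apply Finset.sum_congr rfl
  intro S _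
  rw [Finset.sum_eq_single (S \ J)]
  · simp
  · intro T _ hT
    simp [Ne.symm hT]
  · intro h
    exact absurd (Finset.mem_univ _) h

/-- Restriction identity: biasing by `s + (1 - s) t` is the same as fixing each coordinate to `1`
independently with probability `s` and biasing the rest by `t`. -/
theorem pf_comp (f : (Fin n → ℤˣ) → ℝ) (s t : ℝ) :
    pf f (s + (1 - s) * t)
      = ∑ J : Finset (Fin n), s ^ J.card * (1 - s) ^ (n - J.card)
          * pf (fun x => f (rho J x)) t := by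
  simp_rw [pf_rho, Finset.mul_sum]
  rw [Finset.sum_comm]
  unfold pf
  apply Finset.sum_congr rfl
  intro S _
  rw [← wsum s t S, Finset.mul_sum]
  apply Finset.sum_congr rfl
  intro J _
  ring

theorem pf_zero (g : (Fin n → ℤˣ) → ℝ) : pf g 0 = fhat g ∅ := by
  unfold pf
  rw [Finset.sum_eq_single ∅]
  · simp
  · intro S _ hS
    have : S.card ≠ 0 := by
      rw [Finset.card_ne_zero]
      exact Finset.nonempty_iff_ne_empty.mpr hS
    simp [this]
  · intro h
    exact absurd (Finset.mem_univ _) h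

theorem sum_card_one (a : Finset (Fin n) → ℝ) :
    ∑ S : Finset (Fin n), (if S.card = 1 then a S else 0) = ∑ i, a {i} := by
  rw [← Finset.sum_filter]
  have : (Finset.univ.filter (fun S : Finset (Fin n) => S.card = 1))
      = Finset.univ.map ⟨fun i => ({i} : Finset (Fin n)), Finset.singleton_injective⟩ := by
    ext S
    simp only [Finset.mem_filter, Finset.mem_univ, true_and, Finset.mem_map,
      Function.Embedding.coeFn_mk]
    rw [Finset.card_eq_one]
    constructor
    · rintro ⟨a, rfl⟩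
      exact ⟨a, rfl⟩
    · rintro ⟨a, rfl⟩
      exact ⟨a, rfl⟩
  rw [this, Finset.sum_map]
  rfl

theorem dpf_zero (g : (Fin n → ℤˣ) → ℝ) : dpf g 0 = ∑ i, fhat g {i} := by
  unfold dpf
  have h : ∀ S : Finset (Fin n), fhat g S * ((S.card : ℝ) * (0 : ℝ) ^ (S.card - 1))
      = if S.card = 1 then fhat g S else 0 := by
    intro S
    by_cases h1 : S.card = 1
    · simp [h1]
    · rw [if_neg h1]
      by_cases h0 : S.card = 0
      · simp [h0]
      · have : S.card - 1 ≠ 0 := by omega
        simp [this]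
  simp_rw [h]
  exact sum_card_one (fun S => fhat g S)

theorem rho_bool (f : (Fin n → ℤˣ) → ℝ) (hf : ∀ x, f x = 1 ∨ f x = -1) (J : Finset (Fin n)) :
    ∀ x, f (rho J x) = 1 ∨ f (rho J x) = -1 := fun x => hf (rho J x)

theorem rho_deg (d : ℕ) (f : (Fin n → ℤˣ) → ℝ)
    (hdeg : ∀ S : Finset (Fin n), d < S.card → fhat f S = 0) (J : Finset (Fin n)) :
    ∀ T : Finset (Fin n), d < T.card → fhat (fun x => f (rho J x)) T = 0 := by
  intro T hT
  rw [fhat_rho]
  apply Finset.sum_eq_zero
  intro S _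
  by_cases h : S \ J = T
  · have hc : T.card ≤ S.card := by
      rw [← h]
      exact Finset.card_le_card Finset.sdiff_subset
    rw [hdeg S (by omega)]
    simp
  · simp [h]

theorem abs_fhat_empty_le (g : (Fin n → ℤˣ) → ℝ) (hg : ∀ x, g x = 1 ∨ g x = -1) :
    |fhat g ∅| ≤ 1 := by
  have hp := parseval g hg
  rw [← Finset.add_sum_erase _ _ (Finset.mem_univ (∅ : Finset (Fin n)))] at hp
  have hnn : 0 ≤ ∑ S ∈ Finset.univ.erase (∅ : Finset (Fin n)), fhat g S * fhat g S :=
    Finset.sum_nonneg (fun S _ => mul_self_nonneg _)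
  rw [abs_le]
  constructor <;> nlinarith

theorem weight_nonneg (s : ℝ) (hs0 : 0 ≤ s) (hs1 : s ≤ 1) (J : Finset (Fin n)) :
    0 ≤ s ^ J.card * (1 - s) ^ (n - J.card) :=
  mul_nonneg (pow_nonneg hs0 _) (pow_nonneg (by linarith) _)

theorem weight_sum (s : ℝ) :
    ∑ J : Finset (Fin n), s ^ J.card * (1 - s) ^ (n - J.card) = 1 := by
  have h := wsum (n := n) s 1 ∅
  simpa using h

/-- The differential inequality `(1 - s) p'(s) ≤ d (1 - p(s)^2)` for `0 ≤ s ≤ 1`. -/
theorem diff_ineq (d : ℕ) (f : (Fin n → ℤˣ) → ℝ) (hf : ∀ x, f x = 1 ∨ f x = -1)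
    (hdeg : ∀ S : Finset (Fin n), d < S.card → fhat f S = 0)
    (s : ℝ) (hs0 : 0 ≤ s) (hs1 : s ≤ 1) :
    (1 - s) * dpf f s ≤ d * (1 - pf f s ^ 2) := by
  set w : Finset (Fin n) → ℝ := fun J => s ^ J.card * (1 - s) ^ (n - J.card) with hw
  set m : Finset (Fin n) → ℝ := fun J => fhat (fun x => f (rho J x)) ∅ with hm
  have hw0 : ∀ J, 0 ≤ w J := fun J => weight_nonneg s hs0 hs1 J
  have hw1 : ∑ J, w J = 1 := weight_sum s
  have hp : pf f s = ∑ J, w J * m J := by
    have h := pf_comp f s 0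
    rw [mul_zero, add_zero] at h
    rw [h]
    apply Finset.sum_congr rfl
    intro J _
    rw [pf_zero]
  have hder : (1 - s) * dpf f s = ∑ J, w J * dpf (fun x => f (rho J x)) 0 := by
    have hfun : (fun t : ℝ => pf f (s + (1 - s) * t))
        = fun t : ℝ => ∑ J, w J * pf (fun x => f (rho J x)) t := funext (pf_comp f s)
    have hin : HasDerivAt (fun t : ℝ => s + (1 - s) * t) (1 - s) 0 := by
      have := ((hasDerivAt_id (0 : ℝ)).const_mul (1 - s)).const_add s
      simpa using this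
    have h1c : HasDerivAt ((pf f) ∘ (fun t : ℝ => s + (1 - s) * t))
        (dpf f (s + (1 - s) * 0) * (1 - s)) 0 := by
      apply HasDerivAt.comp
      · exact hasDerivAt_pf f (s + (1 - s) * 0)
      · exact hin
    have h1 : HasDerivAt (fun t : ℝ => pf f (s + (1 - s) * t))
        (dpf f (s + (1 - s) * 0) * (1 - s)) 0 := h1c
    have h2 : HasDerivAt (fun t : ℝ => ∑ J, w J * pf (fun x => f (rho J x)) t)
        (∑ J, w J * dpf (fun x => f (rho J x)) 0) 0 := by
      apply HasDerivAt.fun_sum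
      intro J _
      exact (hasDerivAt_pf (fun x => f (rho J x)) 0).const_mul (w J)
    rw [hfun] at h1
    have := h1.unique h2
    rw [mul_zero, add_zero] at this
    linarith
  have hJ : ∀ J, dpf (fun x => f (rho J x)) 0 ≤ d * (1 - m J ^ 2) := by
    intro J
    rw [dpf_zero]
    exact level_one_le d _ (rho_bool f hf J) (rho_deg d f hdeg J)
  have h1 : (1 - s) * dpf f s ≤ ∑ J, w J * (d * (1 - m J ^ 2)) := by
    rw [hder]
    exact Finset.sum_le_sum (fun J _ => mul_le_mul_of_nonneg_left (hJ J) (hw0 J))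
  have h2 : ∑ J, w J * (d * (1 - m J ^ 2)) = d * (1 - ∑ J, w J * m J ^ 2) := by
    have hterm : ∀ J, w J * ((d : ℝ) * (1 - m J ^ 2)) = d * w J - d * (w J * m J ^ 2) := by
      intro J
      ring
    rw [Finset.sum_congr rfl (fun J _ => hterm J), Finset.sum_sub_distrib, ← Finset.mul_sum,
      ← Finset.mul_sum, hw1]
    ring
  have h3 : (∑ J, w J * m J) ^ 2 ≤ ∑ J, w J * m J ^ 2 := by
    obtain ⟨μ, hμ⟩ : ∃ μ : ℝ, μ = ∑ K, w K * m K := ⟨_, rfl⟩
    rw [← hμ]
    have hnn : 0 ≤ ∑ J, w J * (m J - μ) ^ 2 :=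
      Finset.sum_nonneg (fun J _ => mul_nonneg (hw0 J) (sq_nonneg _))
    have hterm : ∀ J, w J * (m J - μ) ^ 2
        = w J * m J ^ 2 - 2 * μ * (w J * m J) + μ ^ 2 * w J := by
      intro J
      ring
    rw [Finset.sum_congr rfl (fun J _ => hterm J), Finset.sum_add_distrib,
      Finset.sum_sub_distrib, ← Finset.mul_sum, ← Finset.mul_sum, hw1, ← hμ] at hnn
    nlinarith
  have hd0 : (0 : ℝ) ≤ d := Nat.cast_nonneg d
  rw [h2] at h1
  rw [hp]
  nlinarith

theorem abs_pf_le (f : (Fin n → ℤˣ) → ℝ) (hf : ∀ x, f x = 1 ∨ f x = -1)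
    (s : ℝ) (hs0 : 0 ≤ s) (hs1 : s ≤ 1) : |pf f s| ≤ 1 := by
  have h := pf_comp f s 0
  rw [mul_zero, add_zero] at h
  rw [h]
  calc |∑ J : Finset (Fin n), s ^ J.card * (1 - s) ^ (n - J.card)
          * pf (fun x => f (rho J x)) 0|
      ≤ ∑ J : Finset (Fin n), |s ^ J.card * (1 - s) ^ (n - J.card)
          * pf (fun x => f (rho J x)) 0| := Finset.abs_sum_le_sum_abs _ _
    _ ≤ ∑ J : Finset (Fin n), s ^ J.card * (1 - s) ^ (n - J.card) := by
        apply Finset.sum_le_sum
        intro J _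
        rw [abs_mul, abs_of_nonneg (weight_nonneg s hs0 hs1 J), pf_zero]
        exact mul_le_of_le_one_right (weight_nonneg s hs0 hs1 J)
          (abs_fhat_empty_le _ (rho_bool f hf J))
    _ = 1 := weight_sum s

theorem pf_lt_one (f : (Fin n → ℤˣ) → ℝ) (hf : ∀ x, f x = 1 ∨ f x = -1)
    (h0 : fhat f ∅ < 1) (s : ℝ) (hs0 : 0 ≤ s) (hs1 : s < 1) : pf f s < 1 := by
  have h := pf_comp f s 0
  rw [mul_zero, add_zero] at h
  have hws := weight_sum (n := n) s
  have hlt : ∑ J : Finset (Fin n), s ^ J.card * (1 - s) ^ (n - J.card)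
        * pf (fun x => f (rho J x)) 0
      < ∑ J : Finset (Fin n), s ^ J.card * (1 - s) ^ (n - J.card) := by
    apply Finset.sum_lt_sum
    · intro J _
      rw [pf_zero]
      have := abs_fhat_empty_le _ (rho_bool f hf J)
      have hw := weight_nonneg s hs0 hs1.le J
      nlinarith [abs_le.mp this]
    · refine ⟨∅, Finset.mem_univ _, ?_⟩
      rw [pf_zero]
      have hr : (fun x => f (rho ∅ x)) = f := by
        funext x
        congr 1
      rw [hr]
      have hw : 0 < s ^ (∅ : Finset (Fin n)).card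
          * (1 - s) ^ (n - (∅ : Finset (Fin n)).card) := by
        simp only [Finset.card_empty, pow_zero, one_mul]
        exact pow_pos (by linarith) _
      nlinarith
  linarith

/-- Integrated form of the differential inequality: the odds `(1 + p) / (1 - p)` grow at most
by the factor `(1 - a)^(-2 d)` between `0` and `a`. -/
theorem odds_ineq (d : ℕ) (hd : 1 ≤ d) (f : (Fin n → ℤˣ) → ℝ)
    (hf : ∀ x, f x = 1 ∨ f x = -1)
    (hdeg : ∀ S : Finset (Fin n), d < S.card → fhat f S = 0)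
    (a : ℝ) (ha0 : 0 ≤ a) (ha1 : a < 1) :
    (1 + pf f a) * (1 - pf f 0) * (1 - a) ^ (2 * d) ≤ (1 - pf f a) * (1 + pf f 0) := by
  by_cases h0 : fhat f ∅ < 1
  · have hV : ∀ s, 0 ≤ s → s < 1 → 0 < 1 - pf f s := fun s h1 h2 => by
      linarith [pf_lt_one f hf h0 s h1 h2]
    set h : ℝ → ℝ := fun s => (1 + pf f s) * (1 - s) ^ (2 * d) / (1 - pf f s) with hh
    have hderiv : ∀ s, 0 ≤ s → s < 1 → HasDerivAt h
        (((dpf f s * (1 - s) ^ (2 * d)
            + (1 + pf f s) * (((2 * d : ℕ) : ℝ) * (1 - s) ^ (2 * d - 1) * (-1)))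
            * (1 - pf f s) - (1 + pf f s) * (1 - s) ^ (2 * d) * (-(dpf f s)))
          / (1 - pf f s) ^ 2) s := by
      intro s h1 h2
      have e1 : HasDerivAt (fun s => 1 + pf f s) (dpf f s) s :=
        (hasDerivAt_pf f s).const_add 1
      have e2 : HasDerivAt (fun s : ℝ => 1 - s) (-1) s := by
        simpa using (hasDerivAt_id s).const_sub 1
      have e3 : HasDerivAt (fun s : ℝ => (1 - s) ^ (2 * d))
          (((2 * d : ℕ) : ℝ) * (1 - s) ^ (2 * d - 1) * (-1)) s := e2.pow (2 * d)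
      have e4 : HasDerivAt (fun s => 1 - pf f s) (-(dpf f s)) s :=
        (hasDerivAt_pf f s).const_sub 1
      exact (e1.mul e3).div e4 (hV s h1 h2).ne'
    have hanti : AntitoneOn h (Set.Icc 0 a) := by
      apply antitoneOn_of_deriv_nonpos (convex_Icc 0 a)
      · intro s hs
        exact (hderiv s hs.1 (lt_of_le_of_lt hs.2 ha1)).continuousAt.continuousWithinAt
      · intro s hs
        rw [interior_Icc] at hs
        exact (hderiv s hs.1.le (lt_trans hs.2 ha1)).differentiableAt.differentiableWithinAt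
      · intro s hs
        rw [interior_Icc] at hs
        have hs0 := hs.1.le
        have hs1 := lt_trans hs.2 ha1
        rw [(hderiv s hs0 hs1).deriv]
        apply div_nonpos_of_nonpos_of_nonneg _ (sq_nonneg _)
        obtain ⟨k, hk⟩ : ∃ k, 2 * d = k + 1 := ⟨2 * d - 1, by omega⟩
        have hdi := diff_ineq d f hf hdeg s hs0 hs1.le
        have hcast : ((2 * d : ℕ) : ℝ) = 2 * d := by push_cast; ring
        rw [hcast, hk, Nat.add_sub_cancel, pow_succ]
        have hpk : 0 ≤ (1 - s) ^ k := pow_nonneg (by linarith) k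
        have e : (dpf f s * ((1 - s) ^ k * (1 - s))
            + (1 + pf f s) * (2 * (d : ℝ) * (1 - s) ^ k * (-1))) * (1 - pf f s)
            - (1 + pf f s) * ((1 - s) ^ k * (1 - s)) * (-(dpf f s))
            = (1 - s) ^ k * (2 * ((1 - s) * dpf f s - d * (1 - pf f s ^ 2))) := by ring
        rw [e]
        exact mul_nonpos_of_nonneg_of_nonpos hpk (by linarith)
    have hle := hanti (Set.left_mem_Icc.mpr ha0) (Set.right_mem_Icc.mpr ha0) ha0
    simp only [hh] at hle
    rw [sub_zero, one_pow, mul_one,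
      div_le_div_iff₀ (hV a ha0 ha1) (hV 0 le_rfl (by norm_num))] at hle
    linarith
  · have hb := abs_fhat_empty_le f hf
    have h1 : fhat f ∅ = 1 := le_antisymm (abs_le.mp hb).2 (not_lt.mp h0)
    rw [pf_zero, h1]
    have hpa := abs_pf_le f hf a ha0 ha1.le
    have := (abs_le.mp hpa).2
    nlinarith

/-- The function `x ↦ -f(-x)`. -/
def fstar (f : (Fin n → ℤˣ) → ℝ) : (Fin n → ℤˣ) → ℝ := fun x => -f (-x)

theorem chi_neg (S : Finset (Fin n)) (x : Fin n → ℤˣ) :
    chi S (-x) = (-1) ^ S.card * chi S x := by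
  unfold chi
  simp only [Pi.neg_apply, Units.val_neg, Int.cast_neg]
  rw [Finset.prod_neg]

theorem fhat_fstar (f : (Fin n → ℤˣ) → ℝ) (S : Finset (Fin n)) :
    fhat (fstar f) S = -((-1) ^ S.card * fhat f S) := by
  simp only [fhat_eq, fstar]
  rw [← Equiv.sum_comp (Equiv.neg (Fin n → ℤˣ)) (fun x => -f (-x) * chi S x)]
  simp only [Equiv.neg_apply, neg_neg, chi_neg]
  have hsum : ∑ x, -f x * ((-1) ^ S.card * chi S x)
      = -((-1) ^ S.card * ∑ x, f x * chi S x) := by
    rw [Finset.mul_sum, ← Finset.sum_neg_distrib]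
    apply Finset.sum_congr rfl
    intro x _
    ring
  rw [hsum]
  ring

theorem fstar_bool (f : (Fin n → ℤˣ) → ℝ) (hf : ∀ x, f x = 1 ∨ f x = -1) :
    ∀ x, fstar f x = 1 ∨ fstar f x = -1 := by
  intro x
  unfold fstar
  rcases hf (-x) with h | h <;> rw [h] <;> norm_num

theorem fstar_deg (d : ℕ) (f : (Fin n → ℤˣ) → ℝ)
    (hdeg : ∀ S : Finset (Fin n), d < S.card → fhat f S = 0) :
    ∀ S : Finset (Fin n), d < S.card → fhat (fstar f) S = 0 := by
  intro S hS
  rw [fhat_fstar, hdeg S hS]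
  simp

theorem pf_fstar (f : (Fin n → ℤˣ) → ℝ) (s : ℝ) : pf (fstar f) s = -pf f (-s) := by
  unfold pf
  rw [← Finset.sum_neg_distrib]
  apply Finset.sum_congr rfl
  intro S _
  rw [fhat_fstar, neg_pow s]
  ring

theorem gap_alg (A B c q : ℝ) (hA : |A| ≤ 1) (hB : |B| ≤ 1) (hc : |c| ≤ 1)
    (hq0 : 0 < q) (hq1 : q ≤ 1)
    (I1 : (1 + A) * (1 - c) * q ≤ (1 - A) * (1 + c))
    (I2 : (1 - B) * (1 + c) * q ≤ (1 + B) * (1 - c)) :
    (A - B) * (1 + q) ≤ 2 * (1 - q) := by
  obtain ⟨hA1, hA2⟩ := abs_le.mp hA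
  obtain ⟨hB1, hB2⟩ := abs_le.mp hB
  obtain ⟨hc1, hc2⟩ := abs_le.mp hc
  by_cases hc' : c = 1
  · subst hc'
    have hB' : B = 1 := by nlinarith
    subst hB'
    nlinarith
  by_cases hc'' : c = -1
  · subst hc''
    have hA' : A = -1 := by nlinarith
    subst hA'
    nlinarith
  have hcl : c < 1 := lt_of_le_of_ne hc2 hc'
  have hcg : -1 < c := lt_of_le_of_ne hc1 (Ne.symm hc'')
  have hP : 0 < (1 - c) * (1 + c) := mul_pos (by linarith) (by linarith)
  have I3 : (1 + A) * (1 - B) * q ^ 2 ≤ (1 - A) * (1 + B) := by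
    have hmul : ((1 + A) * (1 - c) * q) * ((1 - B) * (1 + c) * q)
        ≤ ((1 - A) * (1 + c)) * ((1 + B) * (1 - c)) :=
      mul_le_mul I1 I2 (mul_nonneg (mul_nonneg (by linarith) (by linarith)) hq0.le)
        (mul_nonneg (by linarith) (by linarith))
    have : ((1 + A) * (1 - B) * q ^ 2) * ((1 - c) * (1 + c))
        ≤ ((1 - A) * (1 + B)) * ((1 - c) * (1 + c)) := by nlinarith
    exact le_of_mul_le_mul_right this hP
  by_contra hcon
  have hcon' : 2 * (1 - q) < (A - B) * (1 + q) := not_le.mp hcon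
  have hprod : 0 < (4 - (1 - q) * ((1 + A) + (1 - B))) * ((1 + q) * ((1 + A) + (1 - B)) - 4) :=
    mul_pos (by nlinarith) (by nlinarith)
  have hq2 : (0 : ℝ) ≤ 1 - q ^ 2 := by nlinarith
  have hT : 0 ≤ (A + B) ^ 2 * (1 - q ^ 2) := mul_nonneg (sq_nonneg _) hq2
  nlinarith

/-- The gap `p(a) - p(-a)` is at most `2 (1 - q) / (1 + q)` with `q = (1 - a)^(2 d)`. -/
theorem sym_gap (d : ℕ) (hd : 1 ≤ d) (f : (Fin n → ℤˣ) → ℝ)
    (hf : ∀ x, f x = 1 ∨ f x = -1)
    (hdeg : ∀ S : Finset (Fin n), d < S.card → fhat f S = 0)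
    (a : ℝ) (ha0 : 0 ≤ a) (ha1 : a ≤ 1) :
    (pf f a - pf f (-a)) * (1 + (1 - a) ^ (2 * d)) ≤ 2 * (1 - (1 - a) ^ (2 * d)) := by
  have hA := abs_pf_le f hf a ha0 ha1
  have hB' := abs_pf_le (fstar f) (fstar_bool f hf) a ha0 ha1
  rw [pf_fstar, abs_neg] at hB'
  rcases lt_or_eq_of_le ha1 with hlt | heq
  · have I1 := odds_ineq d hd f hf hdeg a ha0 hlt
    have I2 := odds_ineq d hd (fstar f) (fstar_bool f hf) (fstar_deg d f hdeg) a ha0 hlt
    rw [pf_fstar, pf_fstar, neg_zero] at I2
    have hc := abs_pf_le f hf 0 le_rfl (by norm_num)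
    have hq0 : 0 < (1 - a) ^ (2 * d) := pow_pos (by linarith) _
    have hq1 : (1 - a) ^ (2 * d) ≤ 1 := pow_le_one₀ (by linarith) (by linarith)
    apply gap_alg (pf f a) (pf f (-a)) (pf f 0) _ hA hB' hc hq0 hq1
    · linarith
    · linarith
  · subst heq
    have hz : (1 - (1 : ℝ)) ^ (2 * d) = 0 := by
      rw [sub_self]
      exact zero_pow (by omega)
    rw [hz]
    have := (abs_le.mp hA).2
    have := (abs_le.mp hB').1
    linarith

end Vale.Agent.Lib.Helper4.BiasPoly
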