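import Mathlib
import Vale.Agent.Lib.Helper1.BlockSensDefs

namespace Vale.Agent.Lib.Helper4.BlockSensExample

open Vale.Agent.Lib.Helper1.BlockSensDefs

/-- the three-variable gadget: `g a b c` holds exactly at `(1,1,0)` and `(0,0,1)` -/
def gadget (a b c : Bool) : Bool := (a && b && !c) || (!a && !b && c)

/-- the nine-variable example: the OR of three copies of the gadget on disjoint triples -/
def virza (z : Fin 9 → Bool) : Bool :=
  gadget (z 0) (z 1) (z 2) || gadget (z 3) (z 4) (z 5) || gadget (z 6) (z 7) (z 8)

/-- the six pairwise disjoint sensitive blocks at the all-false input -/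
def blocks : Finset (Finset (Fin 9)) := {{0, 1}, {2}, {3, 4}, {5}, {6, 7}, {8}}

theorem blocks_card : blocks.card = 6 := by decide

theorem blocks_family : IsBlockFamily virza (fun _ => false) blocks := by
  unfold IsBlockFamily
  decide +kernel

theorem sens_tuple : ∀ a0 a1 a2 a3 a4 a5 a6 a7 a8 : Bool,
    sensAt virza ![a0, a1, a2, a3, a4, a5, a6, a7, a8] ≤ 3 := by
  decide +kernel

theorem virza_sens (z : Fin 9 → Bool) : sensAt virza z ≤ 3 := by
  have h : z = ![z 0, z 1, z 2, z 3, z 4, z 5, z 6, z 7, z 8] := by
    funext i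
    fin_cases i <;> rfl
  rw [h]
  exact sens_tuple _ _ _ _ _ _ _ _ _

/-- the example is tight: sensitivity at most three everywhere, and six pairwise disjoint
sensitive blocks at the all-false input -/
theorem virza_tight :
    (∀ z : Fin 9 → Bool, sensAt virza z ≤ 3) ∧
    IsBlockFamily virza (fun _ => false) blocks ∧ blocks.card = 6 :=
  ⟨virza_sens, blocks_family, blocks_card⟩

/-- existence form, free of the names of this file -/
theorem exists_tight :
    ∃ f : (Fin 9 → Bool) → Bool, (∀ z : Fin 9 → Bool, sensAt f z ≤ 3) ∧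
      ∃ (x : Fin 9 → Bool) (F : Finset (Finset (Fin 9))), IsBlockFamily f x F ∧ F.card = 6 :=
  ⟨virza, virza_sens, fun _ => false, blocks, blocks_family, blocks_card⟩

end Vale.Agent.Lib.Helper4.BlockSensExample
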