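import Mathlib

/-! A sharp Bernstein-type inequality with remainder for odd polynomials, proved by
interpolation at the positive extremal points of the odd Chebyshev polynomials. -/

namespace Vale.Agent.Lib.Helper4.ChebLemma

open Polynomial Real Finset

/-- The polynomials `W r` with `sin ((2 r + 1) θ) = sin θ * (W r)(sin θ ^ 2)`. -/
noncomputable def W : ℕ → ℝ[X]
  | 0 => 1
  | 1 => C 3 - C 4 * X
  | (r + 2) => (C 2 - C 4 * X) * W (r + 1) - W r

theorem lin_natDegree (a b : ℝ) : (C a - C b * X : ℝ[X]).natDegree ≤ 1 := by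
  refine (natDegree_sub_le _ _).trans (max_le ?_ ?_)
  · simp
  · exact (natDegree_C_mul_le _ _).trans natDegree_X_le

theorem W_natDegree : ∀ r : ℕ, (W r).natDegree ≤ r
  | 0 => by simp [W]
  | 1 => by
    rw [W]
    exact lin_natDegree 3 4
  | (r + 2) => by
    have h1 := W_natDegree (r + 1)
    have h0 := W_natDegree r
    rw [W]
    refine (natDegree_sub_le _ _).trans (max_le ?_ (by omega))
    refine natDegree_mul_le.trans ?_
    have := lin_natDegree 2 4
    omega

theorem W_eval_zero : ∀ r : ℕ, (W r).eval 0 = 2 * (r : ℝ) + 1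
  | 0 => by simp [W]
  | 1 => by
    rw [W]
    simp
    norm_num
  | (r + 2) => by
    have h1 := W_eval_zero (r + 1)
    have h0 := W_eval_zero r
    rw [W]
    simp only [eval_sub, eval_mul, eval_C, eval_X]
    rw [h1, h0]
    push_cast
    ring

theorem W_eval_sin : ∀ (r : ℕ) (θ : ℝ),
    sin ((2 * (r : ℝ) + 1) * θ) = sin θ * (W r).eval (sin θ ^ 2)
  | 0, θ => by simp [W]
  | 1, θ => by
    rw [W]
    simp only [eval_sub, eval_mul, eval_C, eval_X]
    have h3 := Real.sin_three_mul θ
    have e : (2 * ((1 : ℕ) : ℝ) + 1) * θ = 3 * θ := by push_cast; ring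
    rw [e, h3]
    ring
  | (r + 2), θ => by
    have h1 := W_eval_sin (r + 1) θ
    have h0 := W_eval_sin r θ
    rw [W]
    simp only [eval_sub, eval_mul, eval_C, eval_X]
    have hc : cos (2 * θ) = 1 - 2 * sin θ ^ 2 := by
      rw [cos_two_mul, cos_sq']
      ring
    have e1 : (2 * ((r + 2 : ℕ) : ℝ) + 1) * θ = (2 * ((r + 1 : ℕ) : ℝ) + 1) * θ + 2 * θ := by
      push_cast; ring
    have e2 : (2 * (r : ℝ) + 1) * θ = (2 * ((r + 1 : ℕ) : ℝ) + 1) * θ - 2 * θ := by
      push_cast; ring
    have key : sin ((2 * ((r + 2 : ℕ) : ℝ) + 1) * θ)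
        = (2 - 4 * sin θ ^ 2) * sin ((2 * ((r + 1 : ℕ) : ℝ) + 1) * θ)
          - sin ((2 * (r : ℝ) + 1) * θ) := by
      rw [e1, e2, sin_add, sin_sub, hc]
      ring
    rw [key, h1, h0]
    ring

/-- The node angles `(2 j + 1) π / (2 (2 r + 1))`. -/
noncomputable def th (r j : ℕ) : ℝ := (2 * (j : ℝ) + 1) * π / (2 * (2 * (r : ℝ) + 1))

/-- The nodes `sin ((2 j + 1) π / (2 (2 r + 1)))`. -/
noncomputable def xn (r j : ℕ) : ℝ := sin (th r j)

/-- The squared nodes. -/
noncomputable def un (r j : ℕ) : ℝ := xn r j ^ 2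

theorem th_pos (r j : ℕ) : 0 < th r j := by
  unfold th
  positivity

theorem th_le (r j : ℕ) (hj : j ≤ r) : th r j ≤ π / 2 := by
  unfold th
  rw [div_le_div_iff₀ (by positivity) (by norm_num)]
  have : (j : ℝ) ≤ r := by exact_mod_cast hj
  nlinarith [pi_pos]

theorem th_lt (r : ℕ) {j k : ℕ} (h : j < k) : th r j < th r k := by
  unfold th
  apply div_lt_div_of_pos_right _ (by positivity)
  have : (j : ℝ) < k := by exact_mod_cast h
  nlinarith [pi_pos]

theorem xn_pos (r j : ℕ) (hj : j ≤ r) : 0 < xn r j :=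
  sin_pos_of_pos_of_lt_pi (th_pos r j) (lt_of_le_of_lt (th_le r j hj) (by linarith [pi_pos]))

theorem xn_le_one (r j : ℕ) : xn r j ≤ 1 := sin_le_one _

theorem xn_lt (r : ℕ) {j k : ℕ} (h : j < k) (hk : k ≤ r) : xn r j < xn r k := by
  apply strictMonoOn_sin
  · constructor <;> linarith [th_pos r j, th_le r j (by omega), pi_pos]
  · constructor <;> linarith [th_pos r k, th_le r k hk, pi_pos]
  · exact th_lt r h

theorem sin_mul_th (r j : ℕ) : sin ((2 * (r : ℝ) + 1) * th r j) = (-1) ^ j := by
  have e : (2 * (r : ℝ) + 1) * th r j = (j : ℝ) * π + π / 2 := by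
    unfold th
    field_simp
  rw [e, sin_add_pi_div_two, cos_nat_mul_pi]

theorem un_pos (r j : ℕ) (hj : j ≤ r) : 0 < un r j := by
  unfold un
  have := xn_pos r j hj
  positivity

theorem un_lt (r : ℕ) {j k : ℕ} (h : j < k) (hk : k ≤ r) : un r j < un r k := by
  unfold un
  have := xn_lt r h hk
  have hp := xn_pos r j (by omega)
  nlinarith

theorem un_injOn (r : ℕ) : Set.InjOn (un r) (Finset.range (r + 1) : Set ℕ) := by
  intro j hj k hk hjk
  simp only [Finset.coe_range, Set.mem_Iio] at hj hk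
  by_contra hne
  rcases Nat.lt_or_gt_of_ne hne with h | h
  · exact absurd hjk (ne_of_lt (un_lt r h (by omega)))
  · exact absurd hjk (ne_of_gt (un_lt r h (by omega)))

/-- The values at zero of the interpolation basis polynomials for the squared nodes. -/
noncomputable def ell (r j : ℕ) : ℝ :=
  ∏ i ∈ (Finset.range (r + 1)).erase j, (un r j - un r i)⁻¹ * (0 - un r i)

theorem eval_zero_eq_sum (r : ℕ) (H : ℝ[X]) (hH : H.natDegree ≤ r) :
    H.eval 0 = ∑ j ∈ Finset.range (r + 1), H.eval (un r j) * ell r j := by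
  have hdeg : H.degree < ((Finset.range (r + 1)).card : WithBot ℕ) := by
    rw [Finset.card_range]
    exact lt_of_le_of_lt degree_le_natDegree (by exact_mod_cast Nat.lt_succ_of_le hH)
  have h := Lagrange.eq_interpolate (un_injOn r) hdeg
  conv_lhs => rw [h]
  rw [Lagrange.interpolate_apply, eval_finsetSum]
  apply Finset.sum_congr rfl
  intro j hj
  rw [eval_mul, eval_C]
  congr 1
  unfold ell Lagrange.basis
  rw [eval_prod]
  apply Finset.prod_congr rfl
  intro i hi
  simp [Lagrange.basisDivisor]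

theorem ell_sign (r j : ℕ) (hj : j ≤ r) : 0 < (-1) ^ j * ell r j := by
  unfold ell
  have union : (Finset.range (r + 1)).erase j = Finset.range j ∪ Finset.Ioc j r := by
    ext i
    simp only [Finset.mem_erase, Finset.mem_range, Finset.mem_union, Finset.mem_Ioc]
    omega
  have disj : Disjoint (Finset.range j) (Finset.Ioc j r) := by
    rw [Finset.disjoint_left]
    intro i hi hi'
    simp only [Finset.mem_range, Finset.mem_Ioc] at hi hi'
    omega
  rw [union, Finset.prod_union disj, ← mul_assoc]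
  have h1 : 0 < ∏ i ∈ Finset.range j, ((-1) * ((un r j - un r i)⁻¹ * (0 - un r i))) := by
    apply Finset.prod_pos
    intro i hi
    have hij : i < j := Finset.mem_range.mp hi
    have hu := un_lt r hij hj
    have hpos : 0 < un r i := un_pos r i (by omega)
    have : 0 < (un r j - un r i)⁻¹ := inv_pos.mpr (by linarith)
    nlinarith
  rw [Finset.prod_mul_distrib, Finset.prod_const, Finset.card_range] at h1
  have h2 : 0 < ∏ i ∈ Finset.Ioc j r, ((un r j - un r i)⁻¹ * (0 - un r i)) := by
    apply Finset.prod_pos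
    intro i hi
    have hij := Finset.mem_Ioc.mp hi
    have hu := un_lt r hij.1 hij.2
    have hpos : 0 < un r i := un_pos r i hij.2
    have : (un r j - un r i)⁻¹ < 0 := inv_lt_zero.mpr (by linarith)
    nlinarith
  exact mul_pos h1 h2

theorem one_le_ell_zero (r : ℕ) : 1 ≤ ell r 0 := by
  unfold ell
  calc (1 : ℝ) = ∏ i ∈ (Finset.range (r + 1)).erase 0, (1 : ℝ) := by simp
    _ ≤ _ := by
      apply Finset.prod_le_prod
      · intro i _
        norm_num
      · intro i hi
        have hi' := Finset.mem_erase.mp hi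
        have hir : i ≤ r := by
          have := Finset.mem_range.mp hi'.2
          omega
        have hu := un_lt r (Nat.pos_of_ne_zero hi'.1) hir
        have hpos : 0 < un r 0 := un_pos r 0 (by omega)
        have hd : 0 < un r i - un r 0 := by linarith
        have e : (un r 0 - un r i)⁻¹ * (0 - un r i) = (un r i - un r 0)⁻¹ * un r i := by
          rw [← neg_sub (un r i) (un r 0), inv_neg]
          ring
        rw [e]
        calc (1 : ℝ) = (un r i - un r 0)⁻¹ * (un r i - un r 0) := (inv_mul_cancel₀ hd.ne').symm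
          _ ≤ (un r i - un r 0)⁻¹ * un r i :=
            mul_le_mul_of_nonneg_left (by linarith) (inv_pos.mpr hd).le

/-- Sharp Bernstein-type bound with remainder: if `G` has degree at most `r` and
`|x G(x^2)| ≤ 1` for `0 < x ≤ 1`, then with `a = sin (π / (2 (2 r + 1)))` we have
`G(0) ≤ (2 r + 1) - (1 - a G(a^2)) / a`. -/
theorem cheb_bound (r : ℕ) (G : ℝ[X]) (hdeg : G.natDegree ≤ r)
    (hb : ∀ x : ℝ, 0 < x → x ≤ 1 → |x * G.eval (x ^ 2)| ≤ 1) :
    G.eval 0 ≤ 2 * (r : ℝ) + 1 - (1 - xn r 0 * G.eval (xn r 0 ^ 2)) / xn r 0 := by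
  have hH : (W r - G).natDegree ≤ r :=
    (natDegree_sub_le _ _).trans (max_le (W_natDegree r) hdeg)
  have hsum := eval_zero_eq_sum r (W r - G) hH
  rw [eval_sub, W_eval_zero] at hsum
  have hterm : ∀ j ∈ Finset.range (r + 1),
      (W r - G).eval (un r j) * ell r j
        = ((1 - (-1) ^ j * (xn r j * G.eval (xn r j ^ 2))) / xn r j)
          * ((-1) ^ j * ell r j) := by
    intro j hj
    have hjr : j ≤ r := by
      have := Finset.mem_range.mp hj
      omega
    have hx := xn_pos r j hjr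
    have hW : xn r j * (W r).eval (xn r j ^ 2) = (-1) ^ j := by
      rw [xn, ← W_eval_sin, sin_mul_th]
    have hsq : ((-1 : ℝ) ^ j) * ((-1) ^ j) = 1 := by
      rw [← mul_pow]
      norm_num
    have hWv : (W r).eval (xn r j ^ 2) = (-1) ^ j / xn r j := by
      rw [eq_div_iff hx.ne']
      linarith
    rw [eval_sub]
    unfold un
    rw [hWv]
    field_simp
    linear_combination (eval (xn r j ^ 2) G * ell r j * xn r j) * hsq
  have hnonneg : ∀ j ∈ Finset.range (r + 1), 0 ≤ (W r - G).eval (un r j) * ell r j := by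
    intro j hj
    have hjr : j ≤ r := by
      have := Finset.mem_range.mp hj
      omega
    have hx := xn_pos r j hjr
    rw [hterm j hj]
    apply mul_nonneg (div_nonneg ?_ hx.le) (ell_sign r j hjr).le
    have h1 := hb (xn r j) hx (xn_le_one r j)
    have h2 : (-1 : ℝ) ^ j * (xn r j * G.eval (xn r j ^ 2))
        ≤ |(-1 : ℝ) ^ j * (xn r j * G.eval (xn r j ^ 2))| := le_abs_self _
    rw [abs_mul, abs_neg_one_pow, one_mul] at h2
    linarith
  have h0mem : 0 ∈ Finset.range (r + 1) := Finset.mem_range.mpr (by omega)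
  have h0 := Finset.single_le_sum hnonneg h0mem
  rw [hterm 0 h0mem] at h0
  have hx0 := xn_pos r 0 (by omega)
  have hq : 0 ≤ (1 - xn r 0 * G.eval (xn r 0 ^ 2)) / xn r 0 := by
    apply div_nonneg _ hx0.le
    have h1 := hb (xn r 0) hx0 (xn_le_one r 0)
    have := le_abs_self (xn r 0 * G.eval (xn r 0 ^ 2))
    linarith
  have h3 : (1 - xn r 0 * G.eval (xn r 0 ^ 2)) / xn r 0
      ≤ (1 - (-1) ^ 0 * (xn r 0 * G.eval (xn r 0 ^ 2))) / xn r 0 * ((-1) ^ 0 * ell r 0) := by
    rw [pow_zero, one_mul, one_mul]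
    calc (1 - xn r 0 * G.eval (xn r 0 ^ 2)) / xn r 0
        = (1 - xn r 0 * G.eval (xn r 0 ^ 2)) / xn r 0 * 1 := (mul_one _).symm
      _ ≤ _ := mul_le_mul_of_nonneg_left (one_le_ell_zero r) hq
  linarith

end Vale.Agent.Lib.Helper4.ChebLemma
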