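import Mathlib

namespace Vale.Agent.Lib.Helper4.EdgeLYM

open Finset

variable {ι : Type*} [DecidableEq ι]

/-- chain weight of an edge at level `k` in a cube of dimension `m` -/
def wt (k m : ℕ) : ℚ := ((k.factorial : ℚ) * ((m - 1 - k).factorial : ℚ)) / (m.factorial : ℚ)

/-- weighted sum over the edges `(S, S ∪ {i})` inside the cube of subsets of `U` -/
def phi (g : Finset ι → ι → ℚ) (U : Finset ι) : ℚ :=
  ∑ i ∈ U, ∑ S ∈ (U.erase i).powerset, g S i * wt S.card U.card

lemma sum_erase_powerset (V : Finset ι) (G : Finset ι → ℚ) :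
    ∑ j ∈ V, ∑ S ∈ (V.erase j).powerset, G S
      = ∑ S ∈ V.powerset, ((V.card : ℚ) - S.card) * G S := by
  rw [Finset.sum_comm' (s' := fun S => V \ S) (t' := V.powerset)]
  · apply Finset.sum_congr rfl
    intro S hS
    have hS' := Finset.mem_powerset.mp hS
    rw [Finset.sum_const, nsmul_eq_mul, Finset.card_sdiff_of_subset hS',
      Nat.cast_sub (Finset.card_le_card hS')]
  · intro j S
    simp only [Finset.mem_powerset, Finset.mem_sdiff]
    constructor
    · rintro ⟨hj, hS⟩
      exact ⟨⟨hj, fun hjS => Finset.notMem_erase j V (hS hjS)⟩,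
        fun x hx => Finset.mem_of_mem_erase (hS hx)⟩
    · rintro ⟨⟨hj, hjS⟩, hS⟩
      exact ⟨hj, fun x hx => Finset.mem_erase.mpr ⟨fun h => hjS (h ▸ hx), hS hx⟩⟩

lemma wt_step (k r : ℕ) :
    ((k + r + 2 : ℕ) : ℚ) * wt k (k + r + 2) = ((r : ℚ) + 1) * wt k (k + r + 1) := by
  unfold wt
  have h1 : k + r + 2 - 1 - k = r + 1 := by omega
  have h2 : k + r + 1 - 1 - k = r := by omega
  rw [h1, h2]
  have h3 : (k + r + 2).factorial = (k + r + 2) * (k + r + 1).factorial := Nat.factorial_succ _
  have h4 : (r + 1).factorial = (r + 1) * r.factorial := Nat.factorial_succ _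
  rw [h3, h4]
  have hpos : ((k + r + 1).factorial : ℚ) ≠ 0 := by positivity
  have hpos2 : ((k + r + 2 : ℕ) : ℚ) ≠ 0 := by positivity
  push_cast
  field_simp

lemma wt_top (m : ℕ) : ((m + 1 : ℕ) : ℚ) * wt m (m + 1) = 1 := by
  unfold wt
  have h1 : m + 1 - 1 - m = 0 := by omega
  rw [h1, Nat.factorial_succ]
  have hpos : (m.factorial : ℚ) ≠ 0 := by positivity
  push_cast
  simp only [Nat.factorial_zero, Nat.cast_one]
  field_simp

omit [DecidableEq ι] in
lemma sum_powerset_step (g : Finset ι → ℚ) (V : Finset ι) :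
    ∑ S ∈ V.powerset, ((V.card + 1 : ℕ) : ℚ) * (g S * wt S.card (V.card + 1))
      = g V + ∑ S ∈ V.powerset, ((V.card : ℚ) - S.card) * (g S * wt S.card V.card) := by
  have hV : V ∈ V.powerset := Finset.mem_powerset.mpr (Finset.Subset.refl V)
  rw [← sub_eq_iff_eq_add, ← Finset.sum_sub_distrib]
  rw [Finset.sum_eq_single_of_mem V hV]
  · rw [sub_self, zero_mul, sub_zero, ← mul_assoc, mul_comm _ (g V), mul_assoc, wt_top, mul_one]
  · intro S hS hne
    have hsub := Finset.mem_powerset.mp hS
    have hlt : S.card < V.card :=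
      Finset.card_lt_card (Finset.ssubset_iff_subset_ne.mpr ⟨hsub, hne⟩)
    obtain ⟨r, hr⟩ : ∃ r, V.card = S.card + r + 1 := ⟨V.card - S.card - 1, by omega⟩
    have e1 := wt_step S.card r
    rw [hr]
    have h2 : ((S.card + r + 1 : ℕ) : ℚ) - S.card = r + 1 := by push_cast; ring
    rw [h2]
    have e1' : ((S.card + r + 1 + 1 : ℕ) : ℚ) * wt S.card (S.card + r + 1 + 1)
        = ((r : ℚ) + 1) * wt S.card (S.card + r + 1) := e1
    linear_combination (g S) * e1'

lemma sum_phi_erase (g : Finset ι → ι → ℚ) (U : Finset ι) :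
    ∑ j ∈ U, phi g (U.erase j)
      = ∑ i ∈ U, ∑ S ∈ (U.erase i).powerset,
          (((U.erase i).card : ℚ) - S.card) * (g S i * wt S.card (U.erase i).card) := by
  unfold phi
  rw [Finset.sum_comm' (s' := fun i => U.erase i) (t' := U)]
  · apply Finset.sum_congr rfl
    intro i hi
    have h1 : ∀ j ∈ U.erase i,
        ∑ S ∈ ((U.erase j).erase i).powerset, g S i * wt S.card (U.erase j).card
          = ∑ S ∈ ((U.erase i).erase j).powerset, g S i * wt S.card (U.erase i).card := by
      intro j hj
      rw [Finset.erase_right_comm, Finset.card_erase_of_mem (Finset.mem_of_mem_erase hj),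
        Finset.card_erase_of_mem hi]
    rw [Finset.sum_congr rfl h1, sum_erase_powerset]
  · intro j i
    simp only [Finset.mem_erase]
    tauto

lemma card_mul_phi (g : Finset ι → ι → ℚ) (U : Finset ι) :
    (U.card : ℚ) * phi g U = ∑ j ∈ U, (g (U.erase j) j + phi g (U.erase j)) := by
  rw [Finset.sum_add_distrib, sum_phi_erase]
  unfold phi
  rw [Finset.mul_sum, ← Finset.sum_add_distrib]
  apply Finset.sum_congr rfl
  intro i hi
  rw [Finset.mul_sum]
  have hc : U.card = (U.erase i).card + 1 := by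
    rw [Finset.card_erase_of_mem hi]
    have := Finset.card_pos.mpr ⟨i, hi⟩
    omega
  rw [hc]
  exact sum_powerset_step (fun S => g S i) (U.erase i)

theorem phi_le (h : Finset ι → ℕ) (hmono : ∀ S T : Finset ι, S ⊆ T → h S ≤ h T)
    (U : Finset ι) :
    phi (fun S i => if h S < h (insert i S) then (1 : ℚ) else 0) U ≤ (h U : ℚ) - (h ∅ : ℚ) := by
  induction U using Finset.strongInduction with
  | H U ih =>
    rcases U.eq_empty_or_nonempty with rfl | hne
    · simp [phi]
    · have hpos : (0 : ℚ) < U.card := by exact_mod_cast Finset.card_pos.mpr hne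
      have hrec := card_mul_phi (fun S i => if h S < h (insert i S) then (1 : ℚ) else 0) U
      have hbound : ∑ j ∈ U, ((if h (U.erase j) < h (insert j (U.erase j)) then (1 : ℚ) else 0)
          + phi (fun S i => if h S < h (insert i S) then (1 : ℚ) else 0) (U.erase j))
          ≤ ∑ j ∈ U, ((h U : ℚ) - h ∅) := by
        apply Finset.sum_le_sum
        intro j hj
        have h1 := ih (U.erase j) (Finset.erase_ssubset hj)
        have h2 : insert j (U.erase j) = U := Finset.insert_erase hj
        rw [h2]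
        have h3 : h (U.erase j) ≤ h U := hmono _ _ (Finset.erase_subset j U)
        have h4 : (if h (U.erase j) < h U then (1 : ℚ) else 0) ≤ (h U : ℚ) - h (U.erase j) := by
          split_ifs with hlt
          · have : (h (U.erase j) : ℚ) + 1 ≤ h U := by exact_mod_cast hlt
            linarith
          · have : (h (U.erase j) : ℚ) ≤ h U := by exact_mod_cast h3
            linarith
        linarith
      rw [Finset.sum_const, nsmul_eq_mul] at hbound
      rw [← hrec] at hbound
      exact le_of_mul_le_mul_left hbound hpos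

lemma exists_threshold_set (I : Finset ℕ) (N : ℕ → ℚ) :
    ∀ d : ℕ, d ≤ I.card → ∃ K : Finset ℕ, K ⊆ I ∧ K.card = d ∧
      ∀ k ∈ K, ∀ j ∈ I \ K, N j ≤ N k := by
  intro d
  induction d with
  | zero =>
    intro _
    exact ⟨∅, Finset.empty_subset _, rfl, fun k hk => absurd hk (Finset.notMem_empty k)⟩
  | succ d ih =>
    intro hd
    obtain ⟨K, hKI, hKc, hK⟩ := ih (by omega)
    have hne : (I \ K).Nonempty := by
      rw [← Finset.card_pos, Finset.card_sdiff_of_subset hKI]
      omega
    obtain ⟨j0, hj0, hmax⟩ := Finset.exists_max_image (I \ K) N hne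
    have hj0' := Finset.mem_sdiff.mp hj0
    refine ⟨insert j0 K, ?_, ?_, ?_⟩
    · intro x hx
      rcases Finset.mem_insert.mp hx with rfl | hx
      · exact hj0'.1
      · exact hKI hx
    · rw [Finset.card_insert_of_notMem hj0'.2, hKc]
    · intro k hk j hj
      have hj' := Finset.mem_sdiff.mp hj
      have hjK : j ∉ K := fun hjK => hj'.2 (Finset.mem_insert_of_mem hjK)
      have hjIK : j ∈ I \ K := Finset.mem_sdiff.mpr ⟨hj'.1, hjK⟩
      rcases Finset.mem_insert.mp hk with rfl | hk
      · exact hmax j hjIK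
      · exact hK k hk j hjIK

lemma topd (I : Finset ℕ) (N x : ℕ → ℚ) (d : ℕ) (hN : ∀ k ∈ I, 0 ≤ N k)
    (hx0 : ∀ k ∈ I, 0 ≤ x k) (hx1 : ∀ k ∈ I, x k ≤ 1) (hsum : ∑ k ∈ I, x k ≤ d) :
    ∃ K : Finset ℕ, K ⊆ I ∧ K.card ≤ d ∧ ∑ k ∈ I, x k * N k ≤ ∑ k ∈ K, N k := by
  by_cases hd : I.card ≤ d
  · refine ⟨I, Finset.Subset.refl I, hd, ?_⟩
    apply Finset.sum_le_sum
    intro k hk
    have := mul_le_mul_of_nonneg_right (hx1 k hk) (hN k hk)
    linarith
  · have hd := not_le.mp hd
    obtain ⟨K, hKI, hKc, hK⟩ := exists_threshold_set I N d hd.le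
    refine ⟨K, hKI, hKc.le, ?_⟩
    rcases K.eq_empty_or_nonempty with rfl | hne
    · have hd0 : d = 0 := by simpa using hKc.symm
      have hz : ∑ k ∈ I, x k ≤ 0 := by simpa [hd0] using hsum
      have hz' : ∀ k ∈ I, x k = 0 := by
        have := (Finset.sum_eq_zero_iff_of_nonneg hx0).mp (le_antisymm hz (Finset.sum_nonneg hx0))
        exact this
      rw [Finset.sum_empty]
      apply le_of_eq
      apply Finset.sum_eq_zero
      intro k hk
      rw [hz' k hk, zero_mul]
    · obtain ⟨k0, hk0, hmin⟩ := Finset.exists_min_image K N hne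
      have hM : 0 ≤ N k0 := hN k0 (hKI hk0)
      have hsplit : ∑ k ∈ I, x k * N k
          = ∑ k ∈ I, x k * (N k - N k0) + N k0 * ∑ k ∈ I, x k := by
        rw [Finset.mul_sum, ← Finset.sum_add_distrib]
        apply Finset.sum_congr rfl
        intro k _
        ring
      have h1 : ∑ k ∈ I, x k * (N k - N k0) ≤ ∑ k ∈ K, (N k - N k0) := by
        rw [← Finset.sum_sdiff hKI]
        have ha : ∑ k ∈ I \ K, x k * (N k - N k0) ≤ 0 := by
          apply Finset.sum_nonpos
          intro k hk
          have hk' := Finset.mem_sdiff.mp hk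
          have h2 : N k ≤ N k0 := hK k0 hk0 k hk
          exact mul_nonpos_of_nonneg_of_nonpos (hx0 k hk'.1) (by linarith)
        have hb : ∑ k ∈ K, x k * (N k - N k0) ≤ ∑ k ∈ K, (N k - N k0) := by
          apply Finset.sum_le_sum
          intro k hk
          have h2 : N k0 ≤ N k := hmin k hk
          have := mul_le_mul_of_nonneg_right (hx1 k (hKI hk)) (by linarith : 0 ≤ N k - N k0)
          linarith
        linarith
      have h2 : N k0 * ∑ k ∈ I, x k ≤ N k0 * d := mul_le_mul_of_nonneg_left hsum hM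
      have h3 : ∑ k ∈ K, (N k - N k0) = ∑ k ∈ K, N k - N k0 * d := by
        rw [Finset.sum_sub_distrib, Finset.sum_const, nsmul_eq_mul, hKc]
        ring
      linarith


lemma choose_mono_half (m : ℕ) {a b : ℕ} (hab : a ≤ b) (hb : b ≤ m / 2) :
    m.choose a ≤ m.choose b := by
  induction b, hab using Nat.le_induction with
  | base => exact le_rfl
  | succ b hab ih =>
    have h1 : b < m / 2 := by omega
    exact le_trans (ih h1.le) (Nat.choose_le_succ_of_lt_half_left h1)

lemma choose_le_of_min_le (m : ℕ) {a b : ℕ} (ha : a ≤ m) (hb : b ≤ m)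
    (h : min a (m - a) ≤ min b (m - b)) : m.choose a ≤ m.choose b := by
  have h1 : m.choose a = m.choose (min a (m - a)) := by
    rcases le_total a (m - a) with h2 | h2
    · rw [min_eq_left h2]
    · rw [min_eq_right h2, Nat.choose_symm ha]
  have h2 : m.choose b = m.choose (min b (m - b)) := by
    rcases le_total b (m - b) with h2 | h2
    · rw [min_eq_left h2]
    · rw [min_eq_right h2, Nat.choose_symm hb]
  rw [h1, h2]
  apply choose_mono_half m h
  omega

lemma sum_le_sum_of_block (c : ℕ → ℕ) (K M : Finset ℕ) (hcard : K.card ≤ M.card)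
    (hthr : ∀ k ∈ M, ∀ j ∈ K \ M, c j ≤ c k) : ∑ k ∈ K, c k ≤ ∑ k ∈ M, c k := by
  rcases M.eq_empty_or_nonempty with rfl | hne
  · have hK : K = ∅ := Finset.card_eq_zero.mp (by simpa using hcard)
    rw [hK]
  · obtain ⟨k0, hk0, hmin⟩ := Finset.exists_min_image M c hne
    have h1 : ∑ k ∈ K, c k = ∑ k ∈ K ∩ M, c k + ∑ k ∈ K \ M, c k := by
      rw [add_comm, ← Finset.sum_union (Finset.disjoint_sdiff_inter K M), Finset.sdiff_union_inter]
    have h2 : ∑ k ∈ M, c k = ∑ k ∈ K ∩ M, c k + ∑ k ∈ M \ K, c k := by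
      rw [Finset.inter_comm, add_comm, ← Finset.sum_union (Finset.disjoint_sdiff_inter M K),
        Finset.sdiff_union_inter]
    have h3 : ∑ k ∈ K \ M, c k ≤ (K \ M).card * c k0 := by
      rw [← smul_eq_mul, ← Finset.sum_const]
      exact Finset.sum_le_sum (fun j hj => hthr k0 hk0 j hj)
    have h4 : (M \ K).card * c k0 ≤ ∑ k ∈ M \ K, c k := by
      rw [← smul_eq_mul, ← Finset.sum_const]
      exact Finset.sum_le_sum (fun j hj => hmin j (Finset.mem_sdiff.mp hj).1)
    have h5 : (K \ M).card ≤ (M \ K).card := by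
      have e1 := Finset.card_sdiff_add_card_inter K M
      have e2 := Finset.card_sdiff_add_card_inter M K
      rw [Finset.inter_comm] at e2
      omega
    have h6 : (K \ M).card * c k0 ≤ (M \ K).card * c k0 := Nat.mul_le_mul_right _ h5
    omega


lemma block_bound (n d : ℕ) (K : Finset ℕ) (hK : K ⊆ range n) (hc : K.card ≤ d) :
    ∑ k ∈ K, n * (n - 1).choose k
      ≤ ∑ k ∈ Finset.Ico ((n - min d n) / 2) ((n - min d n) / 2 + min d n),
          n * (n - 1).choose k := by
  apply sum_le_sum_of_block (fun k => n * (n - 1).choose k)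
  · rw [Nat.card_Ico]
    have h1 : K.card ≤ n := by
      have := Finset.card_le_card hK
      rwa [Finset.card_range] at this
    have h2 : K.card ≤ min d n := le_min hc h1
    omega
  · intro k hk j hj
    have hk' := Finset.mem_Ico.mp hk
    have hj' := Finset.mem_sdiff.mp hj
    have hjn : j < n := Finset.mem_range.mp (hK hj'.1)
    have hjM : ¬ ((n - min d n) / 2 ≤ j ∧ j < (n - min d n) / 2 + min d n) :=
      fun h => hj'.2 (Finset.mem_Ico.mpr h)
    have hdn : min d n ≤ n := min_le_right d n
    apply Nat.mul_le_mul_left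
    apply choose_le_of_min_le (n - 1) (by omega) (by omega)
    apply le_min
    · rcases Nat.lt_or_ge j ((n - min d n) / 2) with h | h
      · exact le_trans (min_le_left _ _) (by omega)
      · exact le_trans (min_le_right _ _) (by omega)
    · rcases Nat.lt_or_ge j ((n - min d n) / 2) with h | h
      · exact le_trans (min_le_left _ _) (by omega)
      · exact le_trans (min_le_right _ _) (by omega)

section FinCount

variable {n : ℕ}

lemma sum_powerset_levels {α M : Type*} [DecidableEq α] [AddCommMonoid M] (V : Finset α)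
    (F : Finset α → M) :
    ∑ S ∈ V.powerset, F S = ∑ k ∈ range (V.card + 1), ∑ S ∈ powersetCard k V, F S := by
  rw [← Finset.sum_fiberwise_of_maps_to (g := Finset.card) (t := range (V.card + 1))]
  · apply Finset.sum_congr rfl
    intro k _
    rw [Finset.powersetCard_eq_filter]
  · intro S hS
    exact Finset.mem_range.mpr
      (Nat.lt_succ_of_le (Finset.card_le_card (Finset.mem_powerset.mp hS)))

lemma sum_levels (hn : 0 < n) (G : Finset (Fin n) → Fin n → ℚ) :
    ∑ i : Fin n, ∑ S ∈ ((univ : Finset (Fin n)).erase i).powerset, G S i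
      = ∑ k ∈ range n, ∑ i : Fin n,
          ∑ S ∈ powersetCard k ((univ : Finset (Fin n)).erase i), G S i := by
  conv_rhs => rw [Finset.sum_comm]
  apply Finset.sum_congr rfl
  intro i _
  rw [sum_powerset_levels]
  have hc : ((univ : Finset (Fin n)).erase i).card + 1 = n := by
    rw [Finset.card_erase_of_mem (Finset.mem_univ i), Finset.card_univ, Fintype.card_fin]
    omega
  rw [hc]

lemma count_levels (hn : 0 < n) (P : Finset (Fin n) → Fin n → Prop)
    [∀ S i, Decidable (P S i)] :
    ((∑ i : Fin n, (univ.filter (fun S : Finset (Fin n) => i ∉ S ∧ P S i)).card : ℕ) : ℚ)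
      = ∑ k ∈ range n, ∑ i : Fin n,
          ∑ S ∈ powersetCard k ((univ : Finset (Fin n)).erase i),
            (if P S i then (1 : ℚ) else 0) := by
  rw [Nat.cast_sum, ← sum_levels hn (fun S i => if P S i then (1 : ℚ) else 0)]
  apply Finset.sum_congr rfl
  intro i _
  have hset : univ.filter (fun S : Finset (Fin n) => i ∉ S ∧ P S i)
      = (((univ : Finset (Fin n)).erase i).powerset).filter (fun S => P S i) := by
    ext S
    simp [Finset.subset_erase]
  rw [hset, Finset.card_filter, Nat.cast_sum]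
  apply Finset.sum_congr rfl
  intro S _
  split_ifs <;> simp

lemma level_count_wt (k : ℕ) (hk : k < n) :
    (∑ i : Fin n, ∑ S ∈ powersetCard k ((univ : Finset (Fin n)).erase i), (1 : ℚ)) * wt k n
      = 1 := by
  have h1 : ∀ i : Fin n, ∑ S ∈ powersetCard k ((univ : Finset (Fin n)).erase i), (1 : ℚ)
      = ((n - 1).choose k : ℚ) := by
    intro i
    rw [Finset.sum_const, Finset.card_powersetCard,
      Finset.card_erase_of_mem (Finset.mem_univ i), Finset.card_univ, Fintype.card_fin]
    simp
  rw [Finset.sum_congr rfl (fun i _ => h1 i), Finset.sum_const, Finset.card_univ,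
    Fintype.card_fin, nsmul_eq_mul]
  obtain ⟨m, rfl⟩ : ∃ m, n = m + 1 := ⟨n - 1, by omega⟩
  have hkm : k ≤ m := by omega
  unfold wt
  simp only [Nat.add_sub_cancel]
  rw [Nat.factorial_succ]
  have hc := Nat.choose_mul_factorial_mul_factorial hkm
  have hc' : ((m.choose k : ℚ)) * (k.factorial : ℚ) * ((m - k).factorial : ℚ) = (m.factorial : ℚ) := by
    exact_mod_cast hc
  have hpos : (m.factorial : ℚ) ≠ 0 := by positivity
  have hpos2 : ((m + 1 : ℕ) : ℚ) ≠ 0 := by positivity
  push_cast
  push_cast at hpos2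
  field_simp
  linear_combination hc'

theorem edge_bound (n d : ℕ) (h : Finset (Fin n) → ℕ)
    (hmono : ∀ S T : Finset (Fin n), S ⊆ T → h S ≤ h T) (hd : h univ ≤ d) :
    ∃ K : Finset ℕ, K ⊆ range n ∧ K.card ≤ d ∧
      ∑ i : Fin n, (univ.filter (fun S : Finset (Fin n) =>
          i ∉ S ∧ h S < h (insert i S))).card
        ≤ ∑ i : Fin n, (univ.filter (fun S : Finset (Fin n) => i ∉ S ∧ S.card ∈ K)).card := by
  rcases Nat.eq_zero_or_pos n with rfl | hn
  · exact ⟨∅, by simp, by simp, by simp⟩
  let g : Finset (Fin n) → Fin n → ℚ := fun S i => if h S < h (insert i S) then (1 : ℚ) else 0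
  let B : ℕ → ℚ := fun k => ∑ i : Fin n,
    ∑ S ∈ powersetCard k ((univ : Finset (Fin n)).erase i), g S i
  let N : ℕ → ℚ := fun k => ∑ i : Fin n,
    ∑ S ∈ powersetCard k ((univ : Finset (Fin n)).erase i), (1 : ℚ)
  have hg0 : ∀ S i, 0 ≤ g S i := by
    intro S i
    show (0 : ℚ) ≤ if h S < h (insert i S) then (1 : ℚ) else 0
    split_ifs <;> norm_num
  have hg1 : ∀ S i, g S i ≤ 1 := by
    intro S i
    show (if h S < h (insert i S) then (1 : ℚ) else 0) ≤ 1
    split_ifs <;> norm_num
  have hB0 : ∀ k, 0 ≤ B k := fun k =>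
    Finset.sum_nonneg (fun i _ => Finset.sum_nonneg (fun S _ => hg0 S i))
  have hN0 : ∀ k, 0 ≤ N k := fun k =>
    Finset.sum_nonneg (fun i _ => Finset.sum_nonneg (fun S _ => zero_le_one))
  have hBN : ∀ k, B k ≤ N k := fun k =>
    Finset.sum_le_sum (fun i _ => Finset.sum_le_sum (fun S _ => hg1 S i))
  have hNw : ∀ k ∈ range n, N k * wt k n = 1 := fun k hk =>
    level_count_wt k (Finset.mem_range.mp hk)
  have hwpos : ∀ k, 0 ≤ wt k n := by
    intro k
    unfold wt
    positivity
  have hlym : ∑ k ∈ range n, B k * wt k n ≤ d := by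
    have h1 := phi_le h hmono (univ : Finset (Fin n))
    have h2 : phi g (univ : Finset (Fin n)) = ∑ k ∈ range n, B k * wt k n := by
      unfold phi
      rw [Finset.card_univ, Fintype.card_fin, sum_levels hn]
      apply Finset.sum_congr rfl
      intro k _
      show _ = (∑ i : Fin n, ∑ S ∈ powersetCard k ((univ : Finset (Fin n)).erase i), g S i)
        * wt k n
      rw [Finset.sum_mul]
      apply Finset.sum_congr rfl
      intro i _
      rw [Finset.sum_mul]
      apply Finset.sum_congr rfl
      intro S hS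
      rw [(Finset.mem_powersetCard.mp hS).2]
    have h3 : (h univ : ℚ) - h ∅ ≤ d := by
      have h4 : (h univ : ℚ) ≤ d := by exact_mod_cast hd
      have h5 : (0 : ℚ) ≤ h ∅ := by positivity
      linarith
    rw [← h2]
    exact le_trans h1 h3
  obtain ⟨K, hKI, hKc, hK⟩ := topd (range n) N (fun k => B k * wt k n) d (fun k _ => hN0 k)
    (fun k _ => mul_nonneg (hB0 k) (hwpos k))
    (fun k hk => by
      have := mul_le_mul_of_nonneg_right (hBN k) (hwpos k)
      rw [hNw k hk] at this
      exact this) hlym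
  refine ⟨K, hKI, hKc, ?_⟩
  have hL := count_levels hn (fun S i => h S < h (insert i S))
  have hR := count_levels hn (fun (S : Finset (Fin n)) (_ : Fin n) => S.card ∈ K)
  have hR' : ∑ k ∈ range n, ∑ i : Fin n,
      ∑ S ∈ powersetCard k ((univ : Finset (Fin n)).erase i),
        (if S.card ∈ K then (1 : ℚ) else 0) = ∑ k ∈ K, N k := by
    have hK2 : ∑ k ∈ K, N k = ∑ k ∈ range n, if k ∈ K then N k else 0 := by
      rw [Finset.sum_ite_mem, Finset.inter_eq_right.mpr hKI]
    rw [hK2]
    apply Finset.sum_congr rfl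
    intro k _
    split_ifs with hk
    · apply Finset.sum_congr rfl
      intro i _
      apply Finset.sum_congr rfl
      intro S hS
      rw [(Finset.mem_powersetCard.mp hS).2, if_pos hk]
    · apply Finset.sum_eq_zero
      intro i _
      apply Finset.sum_eq_zero
      intro S hS
      rw [(Finset.mem_powersetCard.mp hS).2, if_neg hk]
  have hfin : ∑ k ∈ range n, B k ≤ ∑ k ∈ K, N k := by
    calc ∑ k ∈ range n, B k = ∑ k ∈ range n, (B k * wt k n) * N k := by
          apply Finset.sum_congr rfl
          intro k hk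
          rw [mul_assoc, mul_comm (wt k n), hNw k hk, mul_one]
      _ ≤ ∑ k ∈ K, N k := hK
  have hfinal : ((∑ i : Fin n, (univ.filter (fun S : Finset (Fin n) =>
      i ∉ S ∧ h S < h (insert i S))).card : ℕ) : ℚ)
      ≤ ((∑ i : Fin n, (univ.filter (fun S : Finset (Fin n) =>
      i ∉ S ∧ S.card ∈ K)).card : ℕ) : ℚ) := by
    rw [hL, hR, hR']
    exact hfin
  exact_mod_cast hfinal

lemma count_level_set (n : ℕ) (K : Finset ℕ) :
    ∑ i : Fin n, (univ.filter (fun S : Finset (Fin n) => i ∉ S ∧ S.card ∈ K)).card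
      = ∑ k ∈ K, n * (n - 1).choose k := by
  have h1 : ∀ i : Fin n,
      (univ.filter (fun S : Finset (Fin n) => i ∉ S ∧ S.card ∈ K)).card
        = ∑ k ∈ K, (n - 1).choose k := by
    intro i
    rw [Finset.card_eq_sum_card_fiberwise (f := Finset.card) (t := K)
      (fun S hS => (Finset.mem_filter.mp hS).2.2)]
    apply Finset.sum_congr rfl
    intro k hk
    have hset : (univ.filter (fun S : Finset (Fin n) => i ∉ S ∧ S.card ∈ K)).filter
        (fun S => S.card = k) = powersetCard k ((univ : Finset (Fin n)).erase i) := by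
      ext S
      simp only [Finset.mem_filter, Finset.mem_univ, true_and, Finset.mem_powersetCard,
        Finset.subset_erase, Finset.subset_univ]
      constructor
      · rintro ⟨⟨hi, _⟩, hc⟩
        exact ⟨hi, hc⟩
      · rintro ⟨hi, hc⟩
        exact ⟨⟨hi, hc ▸ hk⟩, hc⟩
    rw [hset, Finset.card_powersetCard, Finset.card_erase_of_mem (Finset.mem_univ i),
      Finset.card_univ, Fintype.card_fin]
  rw [Finset.sum_congr rfl (fun i _ => h1 i), Finset.sum_const, Finset.card_univ,
    Fintype.card_fin, smul_eq_mul, Finset.mul_sum]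

end FinCount

end Vale.Agent.Lib.Helper4.EdgeLYM
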