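import Mathlib
import Vale.Agent.Lib.Helper2.Cube
import Vale.Agent.Lib.Helper4.ChebLemma
import Vale.Agent.Lib.Helper4.BiasPoly

/-! The level-one sum of a Boolean function of degree at most `d`: an explicit bound below `d`. -/

namespace Vale.Agent.Lib.Helper4.LevelOne

open Finset Polynomial Vale.Agent.Lib.Helper2.Cube Vale.Agent.Lib.Helper4.BiasPoly
  Vale.Agent.Lib.Helper4.ChebLemma

variable {n : ℕ}

/-- The polynomial `G` with `x G(x^2) = ∑_{|S| odd} fhat(S) x^|S|`. -/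
noncomputable def Gpoly (f : (Fin n → ℤˣ) → ℝ) : ℝ[X] :=
  ∑ S : Finset (Fin n), if Odd S.card then C (fhat f S) * X ^ ((S.card - 1) / 2) else 0

theorem Gpoly_natDegree (d r : ℕ) (hdr : d ≤ 2 * r + 2) (f : (Fin n → ℤˣ) → ℝ)
    (hdeg : ∀ S : Finset (Fin n), d < S.card → fhat f S = 0) :
    (Gpoly f).natDegree ≤ r := by
  unfold Gpoly
  apply natDegree_sum_le_of_forall_le
  intro S _
  split_ifs with h
  · by_cases hc : d < S.card
    · rw [hdeg S hc]
      simp
    · refine (natDegree_C_mul_X_pow_le _ _).trans ?_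
      omega
  · simp

theorem Gpoly_eval_zero (f : (Fin n → ℤˣ) → ℝ) : (Gpoly f).eval 0 = ∑ i, fhat f {i} := by
  unfold Gpoly
  rw [eval_finsetSum, ← sum_card_one (fun S => fhat f S)]
  apply Finset.sum_congr rfl
  intro S _
  by_cases h1 : S.card = 1
  · simp [h1]
  · rw [if_neg h1]
    split_ifs with ho
    · have : (S.card - 1) / 2 ≠ 0 := by
        obtain ⟨k, hk⟩ := ho
        omega
      simp [this]
    · simp

theorem Gpoly_eval (f : (Fin n → ℤˣ) → ℝ) (x : ℝ) :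
    x * (Gpoly f).eval (x ^ 2) = (pf f x - pf f (-x)) / 2 := by
  unfold Gpoly pf
  rw [eval_finsetSum, Finset.mul_sum, ← Finset.sum_sub_distrib, Finset.sum_div]
  apply Finset.sum_congr rfl
  intro S _
  split_ifs with ho
  · rw [ho.neg_pow]
    obtain ⟨k, hk⟩ := ho
    rw [hk]
    simp only [eval_mul, eval_C, eval_pow, eval_X]
    have : (2 * k + 1 - 1) / 2 = k := by omega
    rw [this]
    ring
  · have he : Even S.card := Nat.not_odd_iff_even.mp ho
    rw [he.neg_pow]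
    simp

/-- The explicit bound for the signed level-one sum. -/
theorem level_one_formula (d r : ℕ) (hd : 1 ≤ d) (hdr : d ≤ 2 * r + 2)
    (f : (Fin n → ℤˣ) → ℝ) (hf : ∀ x, f x = 1 ∨ f x = -1)
    (hdeg : ∀ S : Finset (Fin n), d < S.card → fhat f S = 0) :
    ∑ i, fhat f {i} ≤ 2 * (r : ℝ) + 1
      - 2 * (1 - xn r 0) ^ (2 * d) / ((1 + (1 - xn r 0) ^ (2 * d)) * xn r 0) := by
  have ha := xn_pos r 0 (Nat.zero_le r)
  have ha1 := xn_le_one r 0
  have hb : ∀ x : ℝ, 0 < x → x ≤ 1 → |x * (Gpoly f).eval (x ^ 2)| ≤ 1 := by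
    intro x hx0 hx1
    rw [Gpoly_eval]
    have h1 := abs_pf_le f hf x hx0.le hx1
    have h2 := abs_pf_le (fstar f) (fstar_bool f hf) x hx0.le hx1
    rw [pf_fstar, abs_neg] at h2
    rw [abs_le] at h1 h2 ⊢
    constructor <;> linarith [h1.1, h1.2, h2.1, h2.2]
  have hc := cheb_bound r (Gpoly f) (Gpoly_natDegree d r hdr f hdeg) hb
  rw [Gpoly_eval_zero, Gpoly_eval] at hc
  have hg := sym_gap d hd f hf hdeg (xn r 0) ha.le ha1
  have hq0 : 0 ≤ (1 - xn r 0) ^ (2 * d) := pow_nonneg (by linarith) _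
  have h3 : 2 * (1 - xn r 0) ^ (2 * d) / ((1 + (1 - xn r 0) ^ (2 * d)) * xn r 0)
      ≤ (1 - (pf f (xn r 0) - pf f (-xn r 0)) / 2) / xn r 0 := by
    rw [div_le_div_iff₀ (by positivity) ha]
    have h4 : 2 * (1 - xn r 0) ^ (2 * d)
        ≤ (1 - (pf f (xn r 0) - pf f (-xn r 0)) / 2) * (1 + (1 - xn r 0) ^ (2 * d)) := by
      linarith
    have := mul_le_mul_of_nonneg_right h4 ha.le
    linarith
  linarith

theorem chi_mul_arg (σ x : Fin n → ℤˣ) (S : Finset (Fin n)) :
    chi S (σ * x) = chi S σ * chi S x := by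
  unfold chi
  simp only [Pi.mul_apply, Units.val_mul, Int.cast_mul]
  rw [Finset.prod_mul_distrib]

theorem fhat_mul_arg (σ : Fin n → ℤˣ) (f : (Fin n → ℤˣ) → ℝ) (S : Finset (Fin n)) :
    fhat (fun x => f (σ * x)) S = chi S σ * fhat f S := by
  simp only [fhat_eq]
  rw [← Equiv.sum_comp (Equiv.mulLeft σ) (fun x => f x * chi S x), ← mul_div_assoc,
    Finset.mul_sum]
  congr 1
  apply Finset.sum_congr rfl
  intro x _
  simp only [Equiv.coe_mulLeft]
  rw [chi_mul_arg]
  have := chi_sq S σ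
  calc f (σ * x) * chi S x = (chi S σ * chi S σ) * (f (σ * x) * chi S x) := by
        rw [this, one_mul]
    _ = chi S σ * (f (σ * x) * (chi S σ * chi S x)) := by ring

/-- The explicit bound for the sum of the absolute values of the level-one coefficients. -/
theorem level_one_abs_formula (d r : ℕ) (hd : 1 ≤ d) (hdr : d ≤ 2 * r + 2)
    (f : (Fin n → ℤˣ) → ℝ) (hf : ∀ x, f x = 1 ∨ f x = -1)
    (hdeg : ∀ S : Finset (Fin n), d < S.card → fhat f S = 0) :
    ∑ i, |fhat f {i}| ≤ 2 * (r : ℝ) + 1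
      - 2 * (1 - xn r 0) ^ (2 * d) / ((1 + (1 - xn r 0) ^ (2 * d)) * xn r 0) := by
  set σ : Fin n → ℤˣ := fun i => if 0 ≤ fhat f {i} then 1 else -1 with hσ
  have hbool : ∀ x, (fun x => f (σ * x)) x = 1 ∨ (fun x => f (σ * x)) x = -1 :=
    fun x => hf (σ * x)
  have hdeg' : ∀ S : Finset (Fin n), d < S.card → fhat (fun x => f (σ * x)) S = 0 := by
    intro S hS
    rw [fhat_mul_arg, hdeg S hS, mul_zero]
  have h := level_one_formula d r hd hdr (fun x => f (σ * x)) hbool hdeg'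
  have hsum : ∑ i, fhat (fun x => f (σ * x)) {i} = ∑ i, |fhat f {i}| := by
    apply Finset.sum_congr rfl
    intro i _
    rw [fhat_mul_arg]
    have hchi : chi {i} σ = ((σ i : ℤ) : ℝ) := by simp [chi]
    rw [hchi, hσ]
    by_cases h0 : 0 ≤ fhat f {i}
    · simp [h0, abs_of_nonneg h0]
    · simp [h0, abs_of_neg (not_le.mp h0)]
  rw [hsum] at h
  exact h

end Vale.Agent.Lib.Helper4.LevelOne
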