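import Mathlib
import Vale.Agent.Lib.Helper4.ChebLemma

/-! Numerical estimates for the explicit level-one bound. -/

namespace Vale.Agent.Lib.Helper4.Numeric

open Real Vale.Agent.Lib.Helper4.ChebLemma

theorem xn_zero_eq (r : ℕ) : xn r 0 = Real.sin (π / (2 * (2 * (r : ℝ) + 1))) := by
  unfold xn th
  congr 1
  push_cast
  ring

theorem xn_zero_le (r : ℕ) : xn r 0 ≤ π / (2 * (2 * (r : ℝ) + 1)) := by
  rw [xn_zero_eq]
  exact Real.sin_le (by positivity)

theorem delta_ge (m a q : ℝ) (hm : 0 < m) (ha : 0 < a) (ham : a ≤ π / (2 * m))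
    (hq : 161 / 10000 ≤ q) :
    m / 50 ≤ 2 * q / ((1 + q) * a) := by
  have hpi := Real.pi_lt_d2
  have hma : m * a ≤ π / 2 := by
    have := mul_le_mul_of_nonneg_left ham hm.le
    rw [show m * (π / (2 * m)) = π / 2 by field_simp] at this
    exact this
  have hq1 : (0 : ℝ) < 1 + q := by linarith
  rw [le_div_iff₀ (by positivity)]
  have h1 : m * a * (1 + q) ≤ π / 2 * (1 + q) := mul_le_mul_of_nonneg_right hma hq1.le
  nlinarith

theorem q_ge (a : ℝ) (k : ℕ) (ha0 : 0 ≤ a) (ha1 : a ≤ 7 / 40) (hk : (k : ℝ) * a ≤ 33 / 10) :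
    1 / 55 ≤ (1 - a) ^ k := by
  have h1 : Real.exp (-(40 / 33 * a)) ≤ 1 - a := by
    have hy := Real.add_one_le_exp (40 / 33 * a)
    rw [Real.exp_neg]
    have hpos : (0 : ℝ) < 40 / 33 * a + 1 := by positivity
    calc (Real.exp (40 / 33 * a))⁻¹ ≤ (40 / 33 * a + 1)⁻¹ := inv_anti₀ hpos hy
      _ ≤ 1 - a := by
        rw [inv_le_iff_one_le_mul₀ hpos]
        nlinarith
  have h2 : Real.exp (-(40 / 33 * a)) ^ k ≤ (1 - a) ^ k :=
    pow_le_pow_left₀ (Real.exp_pos _).le h1 k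
  have h3 : Real.exp (-(40 / 33 * a)) ^ k = Real.exp (-(40 / 33 * (k * a))) := by
    rw [← Real.exp_nat_mul]
    congr 1
    ring
  have h4 : Real.exp (-4) ≤ Real.exp (-(40 / 33 * (k * a))) := by
    apply Real.exp_le_exp.mpr
    nlinarith
  have h5 : (1 : ℝ) / 55 ≤ Real.exp (-4) := by
    rw [Real.exp_neg, one_div]
    apply inv_anti₀ (Real.exp_pos 4)
    have h41 : Real.exp 4 = Real.exp 1 ^ 4 := by
      rw [← Real.exp_nat_mul]
      norm_num
    rw [h41]
    have he := Real.exp_one_lt_d9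
    calc Real.exp 1 ^ 4 ≤ 2.7182818286 ^ 4 := pow_le_pow_left₀ (Real.exp_pos 1).le he.le 4
      _ ≤ 55 := by norm_num
  rw [h3] at h2
  linarith

/-- The explicit bound `(2 r + 1) - 2 q / ((1 + q) a)` with `a = sin (π / (2 (2 r + 1)))` and
`q = (1 - a)^(2 d)`. -/
noncomputable def bnd (r d : ℕ) : ℝ :=
  2 * (r : ℝ) + 1 - 2 * (1 - xn r 0) ^ (2 * d) / ((1 + (1 - xn r 0) ^ (2 * d)) * xn r 0)

theorem bnd_le_odd (r d : ℕ) : bnd r d ≤ 2 * (r : ℝ) + 1 := by
  unfold bnd
  have ha := xn_pos r 0 (Nat.zero_le r)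
  have ha1 := xn_le_one r 0
  have hq : 0 ≤ (1 - xn r 0) ^ (2 * d) := pow_nonneg (by linarith) _
  have : 0 ≤ 2 * (1 - xn r 0) ^ (2 * d) / ((1 + (1 - xn r 0) ^ (2 * d)) * xn r 0) := by
    positivity
  linarith

theorem bnd_core (r d : ℕ) (hq : 161 / 10000 ≤ (1 - xn r 0) ^ (2 * d)) :
    bnd r d ≤ 49 / 50 * (2 * (r : ℝ) + 1) := by
  unfold bnd
  have ha := xn_pos r 0 (Nat.zero_le r)
  have h := delta_ge (2 * (r : ℝ) + 1) (xn r 0) ((1 - xn r 0) ^ (2 * d)) (by positivity) ha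
    (xn_zero_le r) hq
  linarith

theorem bnd_special (r d : ℕ) (c : ℝ) (hc : xn r 0 ≤ c) (hc1 : c ≤ 1)
    (hq : 161 / 10000 ≤ (1 - c) ^ (2 * d)) :
    bnd r d ≤ 49 / 50 * (2 * (r : ℝ) + 1) := by
  apply bnd_core
  have : (1 - c) ^ (2 * d) ≤ (1 - xn r 0) ^ (2 * d) :=
    pow_le_pow_left₀ (by linarith) (by linarith) _
  linarith

theorem bnd_generic (r d : ℕ) (hr : 4 ≤ r) (h : ((2 * d : ℕ) : ℝ) * xn r 0 ≤ 33 / 10) :
    bnd r d ≤ 49 / 50 * (2 * (r : ℝ) + 1) := by
  apply bnd_core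
  have ha := xn_pos r 0 (Nat.zero_le r)
  have hle := xn_zero_le r
  have hpi := Real.pi_lt_d2
  have hr' : (4 : ℝ) ≤ r := by exact_mod_cast hr
  have ha1 : xn r 0 ≤ 7 / 40 := by
    refine hle.trans ?_
    rw [div_le_iff₀ (by positivity)]
    nlinarith
  have := q_ge (xn r 0) (2 * d) ha.le ha1 h
  linarith

theorem bnd_odd_case (r : ℕ) (hr : 1 ≤ r) :
    bnd r (2 * r + 1) ≤ 49 / 50 * (2 * (r : ℝ) + 1) := by
  have hpi := Real.pi_lt_d2
  have hle := xn_zero_le r
  rcases Nat.lt_or_ge r 4 with h4 | h4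
  · interval_cases r
    · have ha : xn 1 0 = 1 / 2 := by
        rw [xn_zero_eq]
        have : π / (2 * (2 * ((1 : ℕ) : ℝ) + 1)) = π / 6 := by
          push_cast
          ring
        rw [this, Real.sin_pi_div_six]
      unfold bnd
      rw [ha]
      norm_num
    · apply bnd_special 2 (2 * 2 + 1) (315 / 1000)
      · refine hle.trans ?_
        push_cast
        rw [div_le_iff₀ (by norm_num)]
        linarith
      · norm_num
      · norm_num
    · apply bnd_special 3 (2 * 3 + 1) (225 / 1000)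
      · refine hle.trans ?_
        push_cast
        rw [div_le_iff₀ (by norm_num)]
        linarith
      · norm_num
      · norm_num
  · apply bnd_generic r (2 * r + 1) h4
    have hr' : (4 : ℝ) ≤ r := by exact_mod_cast h4
    have h1 : (2 * (2 * (r : ℝ) + 1)) * xn r 0 ≤ π := by
      have := mul_le_mul_of_nonneg_left hle (by positivity : (0 : ℝ) ≤ 2 * (2 * (r : ℝ) + 1))
      rw [mul_div_cancel₀ _ (by positivity)] at this
      exact this
    push_cast
    linarith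

theorem bnd_even_case (r : ℕ) :
    bnd r (2 * r + 2) ≤ 49 / 50 * (2 * (r : ℝ) + 2) := by
  have hpi := Real.pi_lt_d2
  have hle := xn_zero_le r
  rcases Nat.lt_or_ge r 25 with h | h
  · have h1 := bnd_le_odd r (2 * r + 2)
    have hr' : (r : ℝ) ≤ 24 := by exact_mod_cast Nat.lt_succ_iff.mp h
    linarith
  · have hr' : (25 : ℝ) ≤ r := by exact_mod_cast h
    have hg : bnd r (2 * r + 2) ≤ 49 / 50 * (2 * (r : ℝ) + 1) := by
      apply bnd_generic r (2 * r + 2) (by omega)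
      have ha := xn_pos r 0 (Nat.zero_le r)
      have h1 : (2 * (2 * (r : ℝ) + 1)) * xn r 0 ≤ π := by
        have := mul_le_mul_of_nonneg_left hle (by positivity : (0 : ℝ) ≤ 2 * (2 * (r : ℝ) + 1))
        rw [mul_div_cancel₀ _ (by positivity)] at this
        exact this
      have h2 : xn r 0 ≤ π / (2 * (2 * (r : ℝ) + 1)) := hle
      have h3 : xn r 0 ≤ 315 / 10000 := by
        refine hle.trans ?_
        rw [div_le_iff₀ (by positivity)]
        nlinarith
      push_cast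
      nlinarith
    linarith

/-- The explicit bound is at most `(49/50) d` for every `d ≥ 2`. -/
theorem bnd_le (d : ℕ) (hd : 2 ≤ d) : bnd ((d - 1) / 2) d ≤ 49 / 50 * (d : ℝ) := by
  obtain ⟨r, hr⟩ : ∃ r, r = (d - 1) / 2 := ⟨_, rfl⟩
  rw [← hr]
  have hcase : d = 2 * r + 1 ∨ d = 2 * r + 2 := by omega
  rcases hcase with h | h
  · have := bnd_odd_case r (by omega)
    rw [h]
    push_cast
    linarith
  · have := bnd_even_case r
    rw [h]
    push_cast
    linarith

end Vale.Agent.Lib.Helper4.Numeric
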