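import Mathlib

namespace Vale.Agent.Lib.Helper4.Sens

open Finset

/-- the sign convention of the problem: `1` for `t ≥ 0` and `-1` for `t < 0` -/
noncomputable def sgn (t : ℝ) : ℝ := if 0 ≤ t then 1 else -1

/-- a Boolean coordinate read as a point of `{-1, 1}`: `true` is `1`, `false` is `-1` -/
def pm (b : Bool) : ℝ := if b then 1 else -1

/-- the point `x` with coordinate `i` negated -/
def flipAt {n : ℕ} (x : Fin n → Bool) (i : Fin n) : Fin n → Bool :=
  Function.update x i (!(x i))

/-- average sensitivity `I(f)`: the sum over the coordinates `i` of the probability, for a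
uniform point `x` of the cube, that `f x` differs from `f` at `x` with coordinate `i` negated -/
noncomputable def avgSens {n : ℕ} (f : (Fin n → Bool) → ℝ) : ℝ :=
  ∑ i : Fin n,
    ((univ.filter (fun x : Fin n → Bool => f x ≠ f (flipAt x i))).card : ℝ) / 2 ^ n

/-- the threshold function `x ↦ sgn (Q (∑ j, a j * x j))` on the cube `{-1, 1}^n` -/
noncomputable def formPTF {n : ℕ} (a : Fin n → ℝ) (Q : Polynomial ℝ) (x : Fin n → Bool) : ℝ :=
  sgn (Q.eval (∑ j : Fin n, a j * pm (x j)))

/-- the Gotsman-Linial polynomial of `n` and `d`: the monic polynomial whose roots are the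
`min d n` numbers `2 * k + 1 - n`, for the `min d n` consecutive integers `k` starting at
`(n - min d n) / 2` (the middle levels). The root `2 * k + 1 - n` lies strictly between the
values `2 * k - n` and `2 * (k + 1) - n` that `x_1 + ... + x_n` takes on the points of the cube
with `k` and with `k + 1` coordinates equal to `1`. -/
noncomputable def glPoly (n d : ℕ) : Polynomial ℝ :=
  ∏ k ∈ Finset.Ico ((n - min d n) / 2) ((n - min d n) / 2 + min d n),
    (Polynomial.X - Polynomial.C ((2 * (k : ℝ) + 1) - (n : ℝ)))

end Vale.Agent.Lib.Helper4.Sens
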