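import Mathlib
import Vale.Agent.Lib.Helper4.EdgeLYM
import Vale.Agent.Lib.Helper4.SensDefs

namespace Vale.Agent.Lib.Helper4.Sens

open Finset

variable {n : ℕ}

/-- coordinates where `x` agrees with the orientation `u` -/
def agree (u x : Fin n → Bool) : Finset (Fin n) := univ.filter (fun i => x i = u i)

lemma mem_agree (u x : Fin n → Bool) (i : Fin n) : i ∈ agree u x ↔ x i = u i := by
  simp [agree]

/-- the point of the cube whose agreement set with `u` is `S` -/
def ofSet (u : Fin n → Bool) (S : Finset (Fin n)) : Fin n → Bool :=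
  fun i => if i ∈ S then u i else !(u i)

lemma agree_ofSet (u : Fin n → Bool) (S : Finset (Fin n)) : agree u (ofSet u S) = S := by
  ext i
  simp only [mem_agree, ofSet]
  split_ifs with h <;> simp [h]

lemma ofSet_agree (u x : Fin n → Bool) : ofSet u (agree u x) = x := by
  funext i
  simp only [ofSet, mem_agree]
  split_ifs with h
  · exact h.symm
  · cases hx : x i <;> cases hu : u i <;> simp_all

lemma agree_bijective (u : Fin n → Bool) : Function.Bijective (agree u) :=
  Function.bijective_iff_has_inverse.mpr ⟨ofSet u, ofSet_agree u, agree_ofSet u⟩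

lemma flipAt_self (x : Fin n → Bool) (i : Fin n) : flipAt x i i = !(x i) := by
  simp [flipAt]

lemma flipAt_ne (x : Fin n → Bool) {i j : Fin n} (h : j ≠ i) : flipAt x i j = x j := by
  simp [flipAt, h]

lemma flipAt_flipAt (x : Fin n → Bool) (i : Fin n) : flipAt (flipAt x i) i = x := by
  funext j
  by_cases h : j = i
  · subst h
    rw [flipAt_self, flipAt_self]
    simp
  · rw [flipAt_ne _ h, flipAt_ne _ h]

lemma mem_agree_flipAt (u x : Fin n → Bool) (i : Fin n) :
    i ∈ agree u (flipAt x i) ↔ i ∉ agree u x := by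
  rw [mem_agree, mem_agree, flipAt_self]
  cases hx : x i <;> cases hu : u i <;> simp

lemma mem_agree_flipAt_ne (u x : Fin n → Bool) {i j : Fin n} (h : j ≠ i) :
    j ∈ agree u (flipAt x i) ↔ j ∈ agree u x := by
  rw [mem_agree, mem_agree, flipAt_ne _ h]

lemma agree_flipAt_of_notMem (u x : Fin n → Bool) (i : Fin n) (h : i ∉ agree u x) :
    agree u (flipAt x i) = insert i (agree u x) := by
  ext j
  by_cases hj : j = i
  · subst hj
    simp [mem_agree_flipAt, h]
  · rw [mem_agree_flipAt_ne u x hj, Finset.mem_insert]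
    simp [hj]

lemma card_sens (u : Fin n → Bool) (F : Finset (Fin n) → ℝ) (i : Fin n) :
    (univ.filter (fun x : Fin n → Bool => F (agree u x) ≠ F (agree u (flipAt x i)))).card
      = 2 * (univ.filter (fun S : Finset (Fin n) => i ∉ S ∧ F S ≠ F (insert i S))).card := by
  have h1 : ((univ.filter (fun x : Fin n → Bool =>
      F (agree u x) ≠ F (agree u (flipAt x i)))).filter (fun x => i ∉ agree u x)).card
      = (univ.filter (fun S : Finset (Fin n) => i ∉ S ∧ F S ≠ F (insert i S))).card := by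
    apply Finset.card_bijective (agree u) (agree_bijective u)
    intro x
    simp only [Finset.mem_filter, Finset.mem_univ, true_and]
    constructor
    · rintro ⟨hs, hi⟩
      rw [agree_flipAt_of_notMem u x i hi] at hs
      exact ⟨hi, hs⟩
    · rintro ⟨hi, hs⟩
      rw [agree_flipAt_of_notMem u x i hi]
      exact ⟨hs, hi⟩
  have h2 : ((univ.filter (fun x : Fin n → Bool =>
      F (agree u x) ≠ F (agree u (flipAt x i)))).filter (fun x => ¬ (i ∉ agree u x))).card
      = ((univ.filter (fun x : Fin n → Bool =>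
      F (agree u x) ≠ F (agree u (flipAt x i)))).filter (fun x => i ∉ agree u x)).card := by
    apply Finset.card_bijective (fun x => flipAt x i)
      (Function.Involutive.bijective (fun x => flipAt_flipAt x i))
    intro x
    simp only [Finset.mem_filter, Finset.mem_univ, true_and]
    rw [flipAt_flipAt, mem_agree_flipAt]
    constructor
    · rintro ⟨hs, hi⟩
      exact ⟨fun h => hs h.symm, hi⟩
    · rintro ⟨hs, hi⟩
      exact ⟨fun h => hs h.symm, hi⟩
  have h3 := Finset.card_filter_add_card_filter_not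
    (s := univ.filter (fun x : Fin n → Bool => F (agree u x) ≠ F (agree u (flipAt x i))))
    (fun x => i ∉ agree u x)
  omega

/-- orientation of the weights: the sign of each weight -/
noncomputable def orient (a : Fin n → ℝ) : Fin n → Bool := fun i => decide (0 ≤ a i)

/-- the linear form as a function of the agreement set -/
noncomputable def lin (a : Fin n → ℝ) (S : Finset (Fin n)) : ℝ :=
  ∑ j : Fin n, if j ∈ S then |a j| else -|a j|

lemma form_eq_lin (a : Fin n → ℝ) (x : Fin n → Bool) :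
    ∑ j : Fin n, a j * pm (x j) = lin a (agree (orient a) x) := by
  unfold lin
  apply Finset.sum_congr rfl
  intro j _
  simp only [mem_agree]
  unfold orient pm
  by_cases ha : 0 ≤ a j
  · cases hx : x j <;> simp [ha, abs_of_nonneg ha]
  · have ha' : a j < 0 := not_le.mp ha
    cases hx : x j <;> simp [ha, abs_of_neg ha']

lemma lin_mono (a : Fin n → ℝ) {S T : Finset (Fin n)} (h : S ⊆ T) : lin a S ≤ lin a T := by
  unfold lin
  apply Finset.sum_le_sum
  intro j _
  by_cases hS : j ∈ S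
  · simp [hS, h hS]
  · by_cases hT : j ∈ T
    · simp only [hS, hT, if_true, if_false]
      have := abs_nonneg (a j)
      linarith
    · simp [hS, hT]

lemma exists_eps (V : Finset ℝ) : ∃ ε : ℝ, 0 < ε ∧ ∀ v ∈ V, v < 0 → v + ε < 0 := by
  rcases (V.filter (fun v => v < 0)).eq_empty_or_nonempty with h | h
  · refine ⟨1, one_pos, ?_⟩
    intro v hv hneg
    have hmem : v ∈ V.filter (fun v => v < 0) := Finset.mem_filter.mpr ⟨hv, hneg⟩
    rw [h] at hmem
    exact absurd hmem (Finset.notMem_empty v)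
  · obtain ⟨m, hm, hmax⟩ := Finset.exists_max_image _ (fun v : ℝ => v) h
    have hm' := Finset.mem_filter.mp hm
    refine ⟨-m / 2, by linarith [hm'.2], ?_⟩
    intro v hv hneg
    have := hmax v (Finset.mem_filter.mpr ⟨hv, hneg⟩)
    linarith [hm'.2]

lemma exists_potential (a : Fin n → ℝ) (Q : Polynomial ℝ) (d : ℕ) (hQ : Q.natDegree ≤ d) :
    ∃ h : Finset (Fin n) → ℕ, (∀ S T : Finset (Fin n), S ⊆ T → h S ≤ h T) ∧ h univ ≤ d ∧
      ∀ (S : Finset (Fin n)) (i : Fin n),
        sgn (Q.eval (lin a S)) ≠ sgn (Q.eval (lin a (insert i S))) → h S < h (insert i S) := by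
  obtain ⟨ε, hε, hεV⟩ :=
    exists_eps (univ.image (fun S : Finset (Fin n) => Q.eval (lin a S)))
  have hPe : ∀ y : ℝ, (Q + Polynomial.C ε).eval y = Q.eval y + ε := by
    intro y
    simp
  have hpos : ∀ S : Finset (Fin n), 0 ≤ Q.eval (lin a S) →
      0 < (Q + Polynomial.C ε).eval (lin a S) := by
    intro S h
    rw [hPe]
    linarith
  have hneg : ∀ S : Finset (Fin n), Q.eval (lin a S) < 0 →
      (Q + Polynomial.C ε).eval (lin a S) < 0 := by
    intro S h
    rw [hPe]
    exact hεV _ (Finset.mem_image.mpr ⟨S, Finset.mem_univ S, rfl⟩) h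
  have hP0 : Q + Polynomial.C ε ≠ 0 := by
    intro h0
    rcases le_or_gt 0 (Q.eval (lin a ∅)) with h | h
    · have h1 := hpos ∅ h
      rw [h0, Polynomial.eval_zero] at h1
      exact lt_irrefl _ h1
    · have h1 := hneg ∅ h
      rw [h0, Polynomial.eval_zero] at h1
      exact lt_irrefl _ h1
  have hdeg : (Q + Polynomial.C ε).natDegree ≤ d := by
    refine le_trans (Polynomial.natDegree_add_le _ _) ?_
    rw [Polynomial.natDegree_C]
    simpa using hQ
  have hcard : (Q + Polynomial.C ε).roots.toFinset.card ≤ d :=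
    le_trans (Multiset.toFinset_card_le _)
      (le_trans (Polynomial.card_roots' _) hdeg)
  refine ⟨fun S => ((Q + Polynomial.C ε).roots.toFinset.filter (fun r => r < lin a S)).card,
    ?_, ?_, ?_⟩
  · intro S T hST
    apply Finset.card_le_card
    intro r hr
    rw [Finset.mem_filter] at hr ⊢
    exact ⟨hr.1, lt_of_lt_of_le hr.2 (lin_mono a hST)⟩
  · exact le_trans (Finset.card_filter_le _ _) hcard
  · intro S i hne
    have hle : lin a S ≤ lin a (insert i S) := lin_mono a (Finset.subset_insert i S)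
    have hopp : ((Q + Polynomial.C ε).eval (lin a S) < 0 ∧
          0 < (Q + Polynomial.C ε).eval (lin a (insert i S))) ∨
        (0 < (Q + Polynomial.C ε).eval (lin a S) ∧
          (Q + Polynomial.C ε).eval (lin a (insert i S)) < 0) := by
      unfold sgn at hne
      by_cases h1 : 0 ≤ Q.eval (lin a S) <;> by_cases h2 : 0 ≤ Q.eval (lin a (insert i S))
      · simp [h1, h2] at hne
      · right
        exact ⟨hpos S h1, hneg _ (not_le.mp h2)⟩
      · left
        exact ⟨hneg S (not_le.mp h1), hpos _ h2⟩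
      · simp [h1, h2] at hne
    have hcont : ContinuousOn (fun y : ℝ => (Q + Polynomial.C ε).eval y)
        (Set.Icc (lin a S) (lin a (insert i S))) :=
      (Polynomial.continuous _).continuousOn
    obtain ⟨r, hr1, hr2, hr0⟩ : ∃ r : ℝ, lin a S < r ∧ r < lin a (insert i S) ∧
        (Q + Polynomial.C ε).eval r = 0 := by
      rcases hopp with ⟨h1, h2⟩ | ⟨h1, h2⟩
      · obtain ⟨r, hr, hr0⟩ := intermediate_value_Ioo hle hcont ⟨h1, h2⟩
        exact ⟨r, hr.1, hr.2, hr0⟩
      · obtain ⟨r, hr, hr0⟩ := intermediate_value_Ioo' hle hcont ⟨h2, h1⟩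
        exact ⟨r, hr.1, hr.2, hr0⟩
    have hrmem : r ∈ (Q + Polynomial.C ε).roots.toFinset := by
      rw [Multiset.mem_toFinset, Polynomial.mem_roots hP0]
      exact hr0
    apply Finset.card_lt_card
    rw [Finset.ssubset_iff_of_subset]
    · exact ⟨r, Finset.mem_filter.mpr ⟨hrmem, hr2⟩,
        fun h => absurd (Finset.mem_filter.mp h).2 (not_lt.mpr hr1.le)⟩
    · intro t ht
      rw [Finset.mem_filter] at ht ⊢
      exact ⟨ht.1, lt_of_lt_of_le ht.2 hle⟩

/-- polynomial with simple roots strictly between the levels `k` and `k + 1`, `k ∈ K` -/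
noncomputable def symPoly (n : ℕ) (K : Finset ℕ) : Polynomial ℝ :=
  ∏ k ∈ K, (Polynomial.X - Polynomial.C ((2 * (k : ℝ) + 1) - (n : ℝ)))

lemma symPoly_natDegree (n : ℕ) (K : Finset ℕ) : (symPoly n K).natDegree = K.card := by
  unfold symPoly
  rw [Polynomial.natDegree_prod_of_monic _ _ (fun k _ => Polynomial.monic_X_sub_C _),
    Finset.sum_congr rfl (fun k _ => Polynomial.natDegree_X_sub_C _)]
  simp

lemma lin_one (S : Finset (Fin n)) :
    lin (fun _ : Fin n => (1 : ℝ)) S = 2 * (S.card : ℝ) - (n : ℝ) := by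
  unfold lin
  have h1 : ∀ j : Fin n, (if j ∈ S then |(1 : ℝ)| else -|(1 : ℝ)|)
      = 2 * (if j ∈ S then (1 : ℝ) else 0) - 1 := by
    intro j
    split_ifs <;> norm_num
  rw [Finset.sum_congr rfl (fun j _ => h1 j), Finset.sum_sub_distrib, ← Finset.mul_sum,
    Finset.sum_ite_mem, Finset.univ_inter]
  simp

lemma symPoly_sign_change (K : Finset ℕ) (S : Finset (Fin n)) (i : Fin n) (hi : i ∉ S)
    (hK : S.card ∈ K) :
    sgn ((symPoly n K).eval (lin (fun _ : Fin n => (1 : ℝ)) S))
      ≠ sgn ((symPoly n K).eval (lin (fun _ : Fin n => (1 : ℝ)) (insert i S))) := by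
  rw [lin_one, lin_one, Finset.card_insert_of_notMem hi]
  unfold symPoly
  rw [Polynomial.eval_prod, Polynomial.eval_prod]
  simp only [Polynomial.eval_sub, Polynomial.eval_X, Polynomial.eval_C]
  have hprod : (∏ k ∈ K, (2 * (S.card : ℝ) - (n : ℝ) - ((2 * (k : ℝ) + 1) - (n : ℝ))))
      * (∏ k ∈ K, (2 * ((S.card + 1 : ℕ) : ℝ) - (n : ℝ) - ((2 * (k : ℝ) + 1) - (n : ℝ)))) < 0 := by
    rw [← Finset.prod_mul_distrib, ← Finset.mul_prod_erase K _ hK]
    have h1 : (2 * (S.card : ℝ) - (n : ℝ) - ((2 * (S.card : ℝ) + 1) - (n : ℝ)))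
        * (2 * ((S.card + 1 : ℕ) : ℝ) - (n : ℝ) - ((2 * (S.card : ℝ) + 1) - (n : ℝ))) = -1 := by
      push_cast
      ring
    rw [h1]
    have h2 : 0 < ∏ k ∈ K.erase S.card,
        ((2 * (S.card : ℝ) - (n : ℝ) - ((2 * (k : ℝ) + 1) - (n : ℝ)))
          * (2 * ((S.card + 1 : ℕ) : ℝ) - (n : ℝ) - ((2 * (k : ℝ) + 1) - (n : ℝ)))) := by
      apply Finset.prod_pos
      intro k hk
      have hkj : k ≠ S.card := (Finset.mem_erase.mp hk).1
      have h3 : (2 * (S.card : ℝ) - (n : ℝ) - ((2 * (k : ℝ) + 1) - (n : ℝ)))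
          * (2 * ((S.card + 1 : ℕ) : ℝ) - (n : ℝ) - ((2 * (k : ℝ) + 1) - (n : ℝ)))
          = (2 * ((S.card : ℝ) - (k : ℝ))) ^ 2 - 1 := by
        push_cast
        ring
      rw [h3]
      have h4 : (1 : ℝ) ≤ ((S.card : ℝ) - (k : ℝ)) ^ 2 := by
        rcases Nat.lt_or_gt_of_ne hkj with h | h
        · have h5 : (k : ℝ) + 1 ≤ (S.card : ℝ) := by exact_mod_cast h
          nlinarith
        · have h5 : (S.card : ℝ) + 1 ≤ (k : ℝ) := by exact_mod_cast h
          nlinarith
      nlinarith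
    linarith
  unfold sgn
  intro heq
  by_cases hA : 0 ≤ ∏ k ∈ K, (2 * (S.card : ℝ) - (n : ℝ) - ((2 * (k : ℝ) + 1) - (n : ℝ)))
  · by_cases hB : 0 ≤ ∏ k ∈ K,
        (2 * ((S.card + 1 : ℕ) : ℝ) - (n : ℝ) - ((2 * (k : ℝ) + 1) - (n : ℝ)))
    · have := mul_nonneg hA hB
      linarith
    · rw [if_pos hA, if_neg hB] at heq
      norm_num at heq
  · by_cases hB : 0 ≤ ∏ k ∈ K,
        (2 * ((S.card + 1 : ℕ) : ℝ) - (n : ℝ) - ((2 * (k : ℝ) + 1) - (n : ℝ)))
    · rw [if_neg hA, if_pos hB] at heq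
      norm_num at heq
    · have := mul_pos_of_neg_of_neg (not_le.mp hA) (not_le.mp hB)
      linarith

lemma symPoly_no_change (K : Finset ℕ) (S : Finset (Fin n)) (i : Fin n) (hi : i ∉ S)
    (hK : S.card ∉ K) :
    sgn ((symPoly n K).eval (lin (fun _ : Fin n => (1 : ℝ)) S))
      = sgn ((symPoly n K).eval (lin (fun _ : Fin n => (1 : ℝ)) (insert i S))) := by
  rw [lin_one, lin_one, Finset.card_insert_of_notMem hi]
  unfold symPoly
  rw [Polynomial.eval_prod, Polynomial.eval_prod]
  simp only [Polynomial.eval_sub, Polynomial.eval_X, Polynomial.eval_C]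
  have hprod : 0 < (∏ k ∈ K, (2 * (S.card : ℝ) - (n : ℝ) - ((2 * (k : ℝ) + 1) - (n : ℝ))))
      * (∏ k ∈ K, (2 * ((S.card + 1 : ℕ) : ℝ) - (n : ℝ) - ((2 * (k : ℝ) + 1) - (n : ℝ)))) := by
    rw [← Finset.prod_mul_distrib]
    apply Finset.prod_pos
    intro k hk
    have hkj : k ≠ S.card := fun h => hK (h ▸ hk)
    have h3 : (2 * (S.card : ℝ) - (n : ℝ) - ((2 * (k : ℝ) + 1) - (n : ℝ)))
        * (2 * ((S.card + 1 : ℕ) : ℝ) - (n : ℝ) - ((2 * (k : ℝ) + 1) - (n : ℝ)))
        = (2 * ((S.card : ℝ) - (k : ℝ))) ^ 2 - 1 := by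
      push_cast
      ring
    rw [h3]
    have h4 : (1 : ℝ) ≤ ((S.card : ℝ) - (k : ℝ)) ^ 2 := by
      rcases Nat.lt_or_gt_of_ne hkj with h | h
      · have h5 : (k : ℝ) + 1 ≤ (S.card : ℝ) := by exact_mod_cast h
        nlinarith
      · have h5 : (S.card : ℝ) + 1 ≤ (k : ℝ) := by exact_mod_cast h
        nlinarith
    nlinarith
  unfold sgn
  by_cases hA : 0 ≤ ∏ k ∈ K, (2 * (S.card : ℝ) - (n : ℝ) - ((2 * (k : ℝ) + 1) - (n : ℝ)))
  · by_cases hB : 0 ≤ ∏ k ∈ K,
        (2 * ((S.card + 1 : ℕ) : ℝ) - (n : ℝ) - ((2 * (k : ℝ) + 1) - (n : ℝ)))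
    · rw [if_pos hA, if_pos hB]
    · have := mul_nonpos_of_nonneg_of_nonpos hA (not_le.mp hB).le
      linarith
  · by_cases hB : 0 ≤ ∏ k ∈ K,
        (2 * ((S.card + 1 : ℕ) : ℝ) - (n : ℝ) - ((2 * (k : ℝ) + 1) - (n : ℝ)))
    · have := mul_nonpos_of_nonpos_of_nonneg (not_le.mp hA).le hB
      linarith
    · rw [if_neg hA, if_neg hB]

open Vale.Agent.Lib.Helper4.EdgeLYM in
lemma sens_count_le (d : ℕ) (a : Fin n → ℝ) (Q : Polynomial ℝ) (hQ : Q.natDegree ≤ d) :
    ∃ K : Finset ℕ, K ⊆ Finset.range n ∧ K.card ≤ d ∧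
      ∑ i : Fin n,
        (univ.filter (fun x : Fin n → Bool => formPTF a Q x ≠ formPTF a Q (flipAt x i))).card
        ≤ 2 * ∑ k ∈ K, n * (n - 1).choose k := by
  obtain ⟨h, hmono, hd, hsens⟩ := exists_potential a Q d hQ
  obtain ⟨K, hKI, hKc, hK⟩ := edge_bound n d h hmono hd
  refine ⟨K, hKI, hKc, ?_⟩
  have hf : ∀ i : Fin n,
      (univ.filter (fun x : Fin n → Bool => formPTF a Q x ≠ formPTF a Q (flipAt x i))).card
        = 2 * (univ.filter (fun S : Finset (Fin n) =>
            i ∉ S ∧ sgn (Q.eval (lin a S)) ≠ sgn (Q.eval (lin a (insert i S))))).card := by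
    intro i
    have h1 := card_sens (orient a) (fun S => sgn (Q.eval (lin a S))) i
    simp only [formPTF, form_eq_lin]
    exact h1
  have h1 : ∀ i : Fin n,
      (univ.filter (fun S : Finset (Fin n) =>
          i ∉ S ∧ sgn (Q.eval (lin a S)) ≠ sgn (Q.eval (lin a (insert i S))))).card
        ≤ (univ.filter (fun S : Finset (Fin n) => i ∉ S ∧ h S < h (insert i S))).card := by
    intro i
    apply Finset.card_le_card
    intro S hS
    rw [Finset.mem_filter] at hS ⊢
    exact ⟨hS.1, hS.2.1, hsens S i hS.2.2⟩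
  rw [Finset.sum_congr rfl (fun i _ => hf i), ← Finset.mul_sum, ← count_level_set n K]
  apply Nat.mul_le_mul_left
  exact le_trans (Finset.sum_le_sum (fun i _ => h1 i)) hK

open Vale.Agent.Lib.Helper4.EdgeLYM in
lemma sens_count_sym (K : Finset ℕ) :
    ∑ i : Fin n, (univ.filter (fun x : Fin n → Bool =>
        formPTF (fun _ : Fin n => (1 : ℝ)) (symPoly n K) x
          ≠ formPTF (fun _ : Fin n => (1 : ℝ)) (symPoly n K) (flipAt x i))).card
      = 2 * ∑ k ∈ K, n * (n - 1).choose k := by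
  have hg : ∀ i : Fin n,
      (univ.filter (fun x : Fin n → Bool =>
          formPTF (fun _ : Fin n => (1 : ℝ)) (symPoly n K) x
            ≠ formPTF (fun _ : Fin n => (1 : ℝ)) (symPoly n K) (flipAt x i))).card
        = 2 * (univ.filter (fun S : Finset (Fin n) => i ∉ S ∧ S.card ∈ K)).card := by
    intro i
    have h1 := card_sens (orient (fun _ : Fin n => (1 : ℝ)))
      (fun S => sgn ((symPoly n K).eval (lin (fun _ : Fin n => (1 : ℝ)) S))) i
    simp only [formPTF, form_eq_lin]
    rw [h1]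
    congr 2
    ext S
    simp only [Finset.mem_filter, Finset.mem_univ, true_and]
    constructor
    · rintro ⟨hi, hne⟩
      refine ⟨hi, ?_⟩
      by_contra hK'
      exact hne (symPoly_no_change K S i hi hK')
    · rintro ⟨hi, hKS⟩
      exact ⟨hi, symPoly_sign_change K S i hi hKS⟩
  rw [Finset.sum_congr rfl (fun i _ => hg i), ← Finset.mul_sum, count_level_set n K]

lemma glPoly_eq (n d : ℕ) :
    glPoly n d = symPoly n (Finset.Ico ((n - min d n) / 2) ((n - min d n) / 2 + min d n)) :=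
  rfl

lemma avgSens_eq (f : (Fin n → Bool) → ℝ) :
    avgSens f = ((∑ i : Fin n,
      (univ.filter (fun x : Fin n → Bool => f x ≠ f (flipAt x i))).card : ℕ) : ℝ) / 2 ^ n := by
  unfold avgSens
  rw [← Finset.sum_div]
  push_cast
  rfl

end Vale.Agent.Lib.Helper4.Sens
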